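import Mathlib

/-!
# Collapsing all faces of the cube but one

`Q = [-1,1]^M × [0,1]`, rim face `t = 0`, `J` = the other faces. `coll τ : Q → Q` (`0 ≤ τ ≤ 1`) is
a Lipschitz homotopy of maps of pairs `(Q, ∂Q) → (Q, ∂Q)`, `coll 0 = id` and `coll 1` is constant
on `J`.
-/

namespace Vale.Agent.P268.H288

open Set

variable {M : Type*} [Fintype M]

/-- Clamping to `[-r, r]`. -/
noncomputable def clampR (r a : ℝ) : ℝ := max (-r) (min a r)

theorem clampR_of_abs_le {r a : ℝ} (h : |a| ≤ r) : clampR r a = a := by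
  obtain ⟨h1, h2⟩ := abs_le.mp h
  rw [clampR, min_eq_left h2, max_eq_right h1]

theorem abs_clampR_le {r a : ℝ} (hr : 0 ≤ r) : |clampR r a| ≤ r := by
  rw [clampR, abs_le]
  exact ⟨le_max_left _ _, max_le (by linarith) (min_le_right _ _)⟩

theorem clampR_zero (a : ℝ) : clampR 0 a = 0 := by
  have := abs_clampR_le (a := a) (le_refl (0 : ℝ))
  exact abs_nonpos_iff.mp this

theorem abs_clampR_of_le {r a : ℝ} (hr : 0 ≤ r) (h : r ≤ |a|) : |clampR r a| = r := by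
  rcases le_abs.mp h with h | h
  · rw [clampR, min_eq_right h, max_eq_right (by linarith), abs_of_nonneg hr]
  · rw [clampR, min_eq_left (by linarith), max_eq_left (by linarith), abs_neg, abs_of_nonneg hr]

theorem abs_clampR_sub_le (r r' a a' : ℝ) :
    |clampR r a - clampR r' a'| ≤ max |r - r'| |a - a'| := by
  unfold clampR
  refine (abs_max_sub_max_le_max _ _ _ _).trans ?_
  refine max_le ?_ ?_
  · rw [show -r - -r' = -(r - r') by ring, abs_neg]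
    exact le_max_left _ _
  · refine (abs_min_sub_min_le_max _ _ _ _).trans ?_
    exact le_of_eq (max_comm _ _)

/-- Clamping to `[0, 1]`. -/
noncomputable def clamp01 (a : ℝ) : ℝ := max 0 (min a 1)

theorem clamp01_nonneg (a : ℝ) : 0 ≤ clamp01 a := le_max_left _ _

theorem clamp01_le_one (a : ℝ) : clamp01 a ≤ 1 := max_le zero_le_one (min_le_right _ _)

theorem clamp01_of_nonpos {a : ℝ} (h : a ≤ 0) : clamp01 a = 0 :=
  max_eq_left ((min_le_left _ _).trans h)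

theorem clamp01_of_one_le {a : ℝ} (h : 1 ≤ a) : clamp01 a = 1 := by
  rw [clamp01, min_eq_right h, max_eq_right zero_le_one]

theorem abs_clamp01_sub_le (a a' : ℝ) : |clamp01 a - clamp01 a'| ≤ |a - a'| := by
  unfold clamp01
  refine (abs_max_sub_max_le_max _ _ _ _).trans ?_
  refine max_le (by simp) ?_
  refine (abs_min_sub_min_le_max _ _ _ _).trans ?_
  exact max_le le_rfl (by simp)

/-- The collapsing map on `{‖x‖ ≤ 3, 0 ≤ t}`. -/
noncomputable def psi (x : (M → ℝ) × ℝ) : (M → ℝ) × ℝ :=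
  (fun i => clampR (1 - clamp01 (‖x‖ - 2)) (x.1 i), min (x.2 + clamp01 (‖x‖ - 1)) 1)

variable (M) in
/-- The cube `[-1,1]^M × [0,1]`. -/
def Qb : Set ((M → ℝ) × ℝ) := {x | ‖x.1‖ ≤ 1 ∧ 0 ≤ x.2 ∧ x.2 ≤ 1}

variable (M) in
/-- All faces but the rim face. -/
def Jb : Set ((M → ℝ) × ℝ) := {x | x ∈ Qb M ∧ (‖x.1‖ = 1 ∨ x.2 = 1)}

variable (M) in
/-- The rim face. -/
def Rb : Set ((M → ℝ) × ℝ) := {x | x ∈ Qb M ∧ x.2 = 0}

theorem norm_le_one_of_mem {x : (M → ℝ) × ℝ} (hx : x ∈ Qb M) : ‖x‖ ≤ 1 := by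
  rw [Prod.norm_def]
  exact max_le hx.1 (by rw [Real.norm_eq_abs, abs_of_nonneg hx.2.1]; exact hx.2.2)

theorem norm_eq_one_of_mem {x : (M → ℝ) × ℝ} (hx : x ∈ Jb M) : ‖x‖ = 1 := by
  refine le_antisymm (norm_le_one_of_mem hx.1) ?_
  rw [Prod.norm_def]
  rcases hx.2 with h | h
  · exact le_max_of_le_left h.ge
  · refine le_max_of_le_right ?_
    rw [Real.norm_eq_abs, h, abs_one]

theorem psi_mem {x : (M → ℝ) × ℝ} (ht : 0 ≤ x.2) : psi x ∈ Qb M := by
  have h1 := clamp01_nonneg (‖x‖ - 2)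
  have h2 := clamp01_le_one (‖x‖ - 2)
  refine ⟨?_, ?_, ?_⟩
  · refine (pi_norm_le_iff_of_nonneg zero_le_one).mpr fun i => ?_
    refine (abs_clampR_le (by linarith)).trans (by linarith)
  · exact le_min (add_nonneg ht (clamp01_nonneg _)) zero_le_one
  · exact min_le_right _ _

theorem psi_eq_self {x : (M → ℝ) × ℝ} (hx : x ∈ Qb M) : psi x = x := by
  have hn := norm_le_one_of_mem hx
  have e1 : clamp01 (‖x‖ - 1) = 0 := clamp01_of_nonpos (by linarith)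
  have e2 : clamp01 (‖x‖ - 2) = 0 := clamp01_of_nonpos (by linarith)
  unfold psi
  rw [e1, e2, sub_zero, add_zero, min_eq_left hx.2.2]
  refine Prod.ext (funext fun i => ?_) rfl
  exact clampR_of_abs_le ((norm_le_pi_norm x.1 i).trans hx.1)

theorem exists_norm_eq {y : M → ℝ} (h : 0 < ‖y‖) : ∃ i, ‖y i‖ = ‖y‖ := by
  by_contra hcon
  push Not at hcon
  have h1 : ∀ i, ‖y i‖ < ‖y‖ := fun i => lt_of_le_of_ne (norm_le_pi_norm y i) (hcon i)
  exact lt_irrefl _ ((pi_norm_lt_iff h).mpr h1)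

theorem psi_mem_Jb {x : (M → ℝ) × ℝ} (ht : 0 ≤ x.2) (hn : 1 ≤ ‖x‖) : psi x ∈ Jb M := by
  refine ⟨psi_mem ht, ?_⟩
  rcases le_or_gt ‖x‖ 2 with h2 | h2
  · have e2 : clamp01 (‖x‖ - 2) = 0 := clamp01_of_nonpos (by linarith)
    rw [Prod.norm_def] at hn
    rcases le_max_iff.mp hn with h | h
    · left
      obtain ⟨i, hi⟩ := exists_norm_eq (y := x.1) (lt_of_lt_of_le one_pos h)
      refine le_antisymm (psi_mem ht).1 ?_
      refine le_trans ?_ (norm_le_pi_norm (psi x).1 i)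
      change 1 ≤ |clampR (1 - clamp01 (‖x‖ - 2)) (x.1 i)|
      rw [e2, sub_zero, abs_clampR_of_le zero_le_one]
      change 1 ≤ ‖x.1 i‖
      rw [hi]; exact h
    · right
      rw [Real.norm_eq_abs, abs_of_nonneg ht] at h
      exact min_eq_right (h.trans (le_add_of_nonneg_right (clamp01_nonneg _)))
  · right
    have e1 : clamp01 (‖x‖ - 1) = 1 := clamp01_of_one_le (by linarith)
    change min (x.2 + clamp01 (‖x‖ - 1)) 1 = 1
    rw [e1]
    exact min_eq_right (by linarith)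

theorem psi_rim {x : (M → ℝ) × ℝ} (ht : x.2 = 0) : psi x ∈ Jb M ∪ Rb M := by
  rcases le_or_gt 1 ‖x‖ with h | h
  · exact Or.inl (psi_mem_Jb ht.ge h)
  · right
    have hx : x ∈ Qb M := by
      rw [Prod.norm_def] at h
      exact ⟨(lt_of_le_of_lt (le_max_left _ _) h).le, ht.ge, ht.le.trans zero_le_one⟩
    rw [psi_eq_self hx]
    exact ⟨hx, ht⟩

theorem psi_top {x : (M → ℝ) × ℝ} (ht : 0 ≤ x.2) (hn : 3 ≤ ‖x‖) : psi x = (0, 1) := by
  have e1 : clamp01 (‖x‖ - 1) = 1 := clamp01_of_one_le (by linarith)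
  have e2 : clamp01 (‖x‖ - 2) = 1 := clamp01_of_one_le (by linarith)
  unfold psi
  rw [e1, e2, sub_self]
  refine Prod.ext (funext fun i => clampR_zero _) ?_
  exact min_eq_right (by linarith)

theorem norm_psi_sub_le (x x' : (M → ℝ) × ℝ) : ‖psi x - psi x'‖ ≤ 2 * ‖x - x'‖ := by
  have hN : |‖x‖ - ‖x'‖| ≤ ‖x - x'‖ := abs_norm_sub_norm_le x x'
  have h0 : 0 ≤ ‖x - x'‖ := norm_nonneg _
  have h1 : |clamp01 (‖x‖ - 1) - clamp01 (‖x'‖ - 1)| ≤ ‖x - x'‖ := by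
    refine (abs_clamp01_sub_le _ _).trans ?_
    rwa [sub_sub_sub_cancel_right]
  have h2 : |clamp01 (‖x‖ - 2) - clamp01 (‖x'‖ - 2)| ≤ ‖x - x'‖ := by
    refine (abs_clamp01_sub_le _ _).trans ?_
    rwa [sub_sub_sub_cancel_right]
  rw [Prod.norm_def]
  refine max_le ?_ ?_
  · refine (pi_norm_le_iff_of_nonneg (by linarith)).mpr fun i => ?_
    change |clampR (1 - clamp01 (‖x‖ - 2)) (x.1 i) - clampR (1 - clamp01 (‖x'‖ - 2)) (x'.1 i)| ≤ _
    refine (abs_clampR_sub_le _ _ _ _).trans ?_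
    refine max_le ?_ ?_
    · rw [sub_sub_sub_cancel_left, abs_sub_comm]
      linarith
    · have h3 : |x.1 i - x'.1 i| ≤ ‖x - x'‖ :=
        (norm_le_pi_norm (x.1 - x'.1) i).trans (norm_fst_le (x - x'))
      linarith
  · change |min (x.2 + clamp01 (‖x‖ - 1)) 1 - min (x'.2 + clamp01 (‖x'‖ - 1)) 1| ≤ _
    refine (abs_min_sub_min_le_max _ _ _ _).trans ?_
    refine max_le ?_ (by rw [sub_self, abs_zero]; linarith)
    have h3 : |x.2 - x'.2| ≤ ‖x - x'‖ := norm_snd_le (x - x')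
    rw [add_sub_add_comm]
    refine (abs_add_le _ _).trans ?_
    linarith

/-- The collapsing homotopy. -/
noncomputable def coll (τ : ℝ) (x : (M → ℝ) × ℝ) : (M → ℝ) × ℝ := psi ((1 + 2 * τ) • x)

theorem coll_zero {x : (M → ℝ) × ℝ} (hx : x ∈ Qb M) : coll 0 x = x := by
  rw [coll, mul_zero, add_zero, one_smul, psi_eq_self hx]

theorem smul_snd_nonneg {τ : ℝ} (hτ : 0 ≤ τ) {x : (M → ℝ) × ℝ} (hx : x ∈ Qb M) :
    0 ≤ ((1 + 2 * τ) • x).2 := mul_nonneg (by linarith) hx.2.1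

theorem coll_mem {τ : ℝ} (hτ : 0 ≤ τ) {x : (M → ℝ) × ℝ} (hx : x ∈ Qb M) : coll τ x ∈ Qb M :=
  psi_mem (smul_snd_nonneg hτ hx)

theorem coll_mem_Jb {τ : ℝ} (hτ : 0 ≤ τ) {x : (M → ℝ) × ℝ} (hx : x ∈ Jb M) :
    coll τ x ∈ Jb M := by
  refine psi_mem_Jb (smul_snd_nonneg hτ hx.1) ?_
  rw [norm_smul, norm_eq_one_of_mem hx, mul_one, Real.norm_eq_abs, abs_of_nonneg (by linarith)]
  linarith

theorem coll_rim {τ : ℝ} {x : (M → ℝ) × ℝ} (hx : x ∈ Rb M) :
    coll τ x ∈ Jb M ∪ Rb M := by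
  refine psi_rim ?_
  change (1 + 2 * τ) * x.2 = 0
  rw [hx.2, mul_zero]

theorem coll_one {x : (M → ℝ) × ℝ} (hx : x ∈ Jb M) : coll 1 x = (0, 1) := by
  refine psi_top (smul_snd_nonneg zero_le_one hx.1) ?_
  rw [norm_smul, norm_eq_one_of_mem hx, mul_one, Real.norm_eq_abs]
  norm_num

/-- Joint Lipschitz estimate. -/
theorem norm_coll_sub_le {τ σ : ℝ} (hτ : τ ∈ Icc (0 : ℝ) 1) {x x' : (M → ℝ) × ℝ}
    (hx' : x' ∈ Qb M) : ‖coll τ x - coll σ x'‖ ≤ 6 * ‖x - x'‖ + 4 * |τ - σ| := by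
  refine (norm_psi_sub_le _ _).trans ?_
  have e : (1 + 2 * τ) • x - (1 + 2 * σ) • x' = (1 + 2 * τ) • (x - x') + (2 * (τ - σ)) • x' := by
    rw [smul_sub, show 1 + 2 * τ = (1 + 2 * σ) + 2 * (τ - σ) by ring, add_smul, add_smul]
    abel_nf
    module
  rw [e]
  have h1 : ‖(1 + 2 * τ) • (x - x')‖ ≤ 3 * ‖x - x'‖ := by
    rw [norm_smul, Real.norm_eq_abs, abs_of_nonneg (by linarith [hτ.1])]
    exact mul_le_mul_of_nonneg_right (by linarith [hτ.2]) (norm_nonneg _)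
  have h2 : ‖(2 * (τ - σ)) • x'‖ ≤ 2 * |τ - σ| := by
    rw [norm_smul, Real.norm_eq_abs, abs_mul, abs_of_pos (by norm_num : (0 : ℝ) < 2)]
    exact mul_le_of_le_one_right (by positivity) (norm_le_one_of_mem hx')
  linarith [norm_add_le ((1 + 2 * τ) • (x - x')) ((2 * (τ - σ)) • x')]

theorem continuous_psi : Continuous (psi : (M → ℝ) × ℝ → (M → ℝ) × ℝ) := by
  have h : LipschitzWith 2 (psi : (M → ℝ) × ℝ → (M → ℝ) × ℝ) :=
    LipschitzWith.of_dist_le_mul fun x x' => by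
      rw [dist_eq_norm, dist_eq_norm]
      exact norm_psi_sub_le x x'
  exact h.continuous

theorem continuous_coll : Continuous fun p : ℝ × ((M → ℝ) × ℝ) => coll p.1 p.2 := by
  unfold coll
  exact continuous_psi.comp (by fun_prop)

end Vale.Agent.P268.H288
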