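import Vale.Agent.P268.H288.PP
import Vale.Agent.P268.H288.Collapse

/-!
# From free to based relative spheroids

A free spheroid of a pair `(X, A)` is a map `F : (M → ℝ) × ℝ → X` with `F (∂Q) ⊆ A` for the cube
`Q = Qb M`. Given a path `δ` in `A` from `F (0, 1)` to the base point `a`, `ext F δ` is defined on
the cube of size 4 and restricting it to cubes of size `1 + 3 s` gives a homotopy of free spheroids
from `F` to a relative spheroid which is constant `= a` on all faces but the rim.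
-/

set_option linter.unusedSectionVars false

namespace Vale.Agent.P268.H288

open scoped unitInterval Topology Topology.Homotopy
open Set

variable {M : Type*} [Fintype M] {X Y T : Type*} [TopologicalSpace X] [TopologicalSpace Y]
  [TopologicalSpace T]

/-- Boundary of the cube. -/
def Bb (M : Type*) [Fintype M] : Set ((M → ℝ) × ℝ) := Jb M ∪ Rb M

/-- The point `(0, 1)` of `J`. -/
def topPt : (M → ℝ) × ℝ := (0, 1)

theorem topPt_mem : (topPt : (M → ℝ) × ℝ) ∈ Jb M := by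
  refine ⟨⟨?_, zero_le_one, le_rfl⟩, Or.inr rfl⟩
  change ‖(0 : M → ℝ)‖ ≤ 1
  rw [norm_zero]
  exact zero_le_one

/-- The extension of `F` by the path `δ` to the cube of size 4. -/
noncomputable def ext (F : (M → ℝ) × ℝ → X) (δ : ℝ → X) (x : (M → ℝ) × ℝ) : X := by
  classical
  exact if ‖x‖ ≤ 3 then F (psi x) else δ (‖x‖ - 3)

theorem ext_of_le {F : (M → ℝ) × ℝ → X} {δ : ℝ → X} {x : (M → ℝ) × ℝ} (h : ‖x‖ ≤ 3) :
    ext F δ x = F (psi x) := if_pos h

theorem ext_of_ge {F : (M → ℝ) × ℝ → X} {δ : ℝ → X} (h0 : δ 0 = F topPt) {x : (M → ℝ) × ℝ}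
    (ht : 0 ≤ x.2) (h : 3 ≤ ‖x‖) : ext F δ x = δ (‖x‖ - 3) := by
  rcases h.eq_or_lt with h | h
  · rw [ext_of_le h.ge, ← h, sub_self, h0, psi_top ht h.le]
    rfl
  · exact if_neg (not_le.mpr h)

theorem ext_of_mem {F : (M → ℝ) × ℝ → X} {δ : ℝ → X} {x : (M → ℝ) × ℝ} (h : x ∈ Qb M) :
    ext F δ x = F x := by
  rw [ext_of_le ((norm_le_one_of_mem h).trans (by norm_num)), psi_eq_self h]

/-- Continuity of the extension, with parameters. -/
theorem continuous_ext {F : T → (M → ℝ) × ℝ → X} {δ : T → ℝ → X}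
    (hF : Continuous fun p : T × ((M → ℝ) × ℝ) => F p.1 p.2)
    (hδ : Continuous fun p : T × ℝ => δ p.1 p.2) (h0 : ∀ t, δ t 0 = F t topPt) :
    Continuous fun p : T × {x : (M → ℝ) × ℝ // 0 ≤ x.2} => ext (F p.1) (δ p.1) p.2.1 := by
  classical
  have hn : Continuous fun p : T × {x : (M → ℝ) × ℝ // 0 ≤ x.2} => ‖p.2.1‖ :=
    (continuous_subtype_val.comp continuous_snd).norm
  have h1 : Continuous fun p : T × {x : (M → ℝ) × ℝ // 0 ≤ x.2} => F p.1 (psi p.2.1) :=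
    hF.comp (continuous_fst.prodMk (continuous_psi.comp
      (continuous_subtype_val.comp continuous_snd)))
  have h2 : Continuous fun p : T × {x : (M → ℝ) × ℝ // 0 ≤ x.2} => δ p.1 (‖p.2.1‖ - 3) :=
    hδ.comp (continuous_fst.prodMk (hn.sub continuous_const))
  exact Continuous.if_le h1 h2 hn continuous_const fun p hp => by
    rw [hp, sub_self, h0, psi_top p.2.2 hp.ge]
    rfl

variable {A : Set X} {a : X}

/-- Values of the extension in `A`. -/
theorem ext_mem {F : (M → ℝ) × ℝ → X} {δ : ℝ → X} (hF : ∀ x ∈ Bb M, F x ∈ A)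
    (hδ : ∀ t ∈ Icc (0 : ℝ) 1, δ t ∈ A) (h0 : δ 0 = F topPt) {x : (M → ℝ) × ℝ}
    (ht : 0 ≤ x.2) (h4 : ‖x‖ ≤ 4) (h : x.2 = 0 ∨ 1 ≤ ‖x‖) : ext F δ x ∈ A := by
  rcases le_total ‖x‖ 3 with h3 | h3
  · rw [ext_of_le h3]
    apply hF
    rcases h with h | h
    · exact psi_rim h
    · exact Or.inl (psi_mem_Jb ht h)
  · rw [ext_of_ge h0 ht h3]
    exact hδ _ ⟨by linarith, by linarith⟩

/-- The free spheroid at time `s` of the homotopy. -/
noncomputable def bas (F : (M → ℝ) × ℝ → X) (δ : ℝ → X) (s : ℝ) (x : (M → ℝ) × ℝ) : X :=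
  ext F δ ((1 + 3 * s) • x)

theorem bas_zero {F : (M → ℝ) × ℝ → X} {δ : ℝ → X} {x : (M → ℝ) × ℝ} (hx : x ∈ Qb M) :
    bas F δ 0 x = F x := by
  rw [bas, mul_zero, add_zero, one_smul, ext_of_mem hx]

theorem norm_scaled {s : ℝ} (hs : 0 ≤ s) (x : (M → ℝ) × ℝ) :
    ‖(1 + 3 * s) • x‖ = (1 + 3 * s) * ‖x‖ := by
  rw [norm_smul, Real.norm_eq_abs, abs_of_nonneg (by linarith)]

theorem bas_mem {F : (M → ℝ) × ℝ → X} {δ : ℝ → X} (hF : ∀ x ∈ Bb M, F x ∈ A)
    (hδ : ∀ t ∈ Icc (0 : ℝ) 1, δ t ∈ A) (h0 : δ 0 = F topPt) {s : ℝ} (hs : s ∈ Icc (0 : ℝ) 1)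
    {x : (M → ℝ) × ℝ} (hx : x ∈ Bb M) : bas F δ s x ∈ A := by
  have hxQ : x ∈ Qb M := hx.elim (fun h => h.1) fun h => h.1
  have hn := norm_le_one_of_mem hxQ
  have hn0 := norm_nonneg x
  refine ext_mem hF hδ h0 (mul_nonneg (by linarith [hs.1]) hxQ.2.1) ?_ ?_
  · rw [norm_scaled hs.1]
    nlinarith [hs.1, hs.2]
  · rcases hx with h | h
    · right
      rw [norm_scaled hs.1, norm_eq_one_of_mem h]
      linarith [hs.1]
    · left
      change (1 + 3 * s) * x.2 = 0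
      rw [h.2, mul_zero]

theorem bas_one {F : (M → ℝ) × ℝ → X} {δ : ℝ → X} (h0 : δ 0 = F topPt) {x : (M → ℝ) × ℝ}
    (hx : x ∈ Jb M) : bas F δ 1 x = δ 1 := by
  have hn : ‖(1 + 3 * (1 : ℝ)) • x‖ = 4 := by
    rw [norm_scaled zero_le_one, norm_eq_one_of_mem hx]; norm_num
  rw [bas, ext_of_ge h0 (mul_nonneg (by norm_num) hx.1.2.1) (by rw [hn]; norm_num), hn]
  norm_num

/-- The chart of the cube. -/
def cubI (q : (M → I) × I) : (M → ℝ) × ℝ := (fun i => 2 * (q.1 i : ℝ) - 1, (q.2 : ℝ))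

theorem continuous_cubI : Continuous (cubI : (M → I) × I → (M → ℝ) × ℝ) := by
  unfold cubI
  fun_prop

theorem cubI_mem (q : (M → I) × I) : cubI q ∈ Qb M := by
  refine ⟨(pi_norm_le_iff_of_nonneg zero_le_one).mpr fun i => ?_, q.2.2.1, q.2.2.2⟩
  change |2 * (q.1 i : ℝ) - 1| ≤ 1
  rw [abs_le]
  constructor <;> linarith [(q.1 i).2.1, (q.1 i).2.2]

theorem cubI_rim {q : (M → I) × I} (h : q.2 = 0) : cubI q ∈ Rb M := by
  refine ⟨cubI_mem q, ?_⟩
  change (q.2 : ℝ) = 0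
  rw [h]; rfl

theorem cubI_top {q : (M → I) × I} (h : q.2 = 1) : cubI q ∈ Jb M := by
  refine ⟨cubI_mem q, Or.inr ?_⟩
  change (q.2 : ℝ) = 1
  rw [h]; rfl

theorem cubI_side {q : (M → I) × I} (h : q.1 ∈ Cube.boundary M) : cubI q ∈ Jb M := by
  refine ⟨cubI_mem q, Or.inl ?_⟩
  refine le_antisymm (cubI_mem q).1 ?_
  obtain ⟨i, hi⟩ := h
  refine le_trans ?_ (norm_le_pi_norm (cubI q).1 i)
  change 1 ≤ |2 * (q.1 i : ℝ) - 1|
  rcases hi with hi | hi
  · rw [hi]; norm_num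
  · rw [hi]; norm_num

/-- The inverse chart (clamped). -/
noncomputable def unI (x : (M → ℝ) × ℝ) : (M → I) × I :=
  (fun i => projIcc 0 1 zero_le_one ((x.1 i + 1) / 2), projIcc 0 1 zero_le_one x.2)

theorem continuous_unI : Continuous (unI : (M → ℝ) × ℝ → (M → I) × I) := by
  unfold unI
  refine Continuous.prodMk (continuous_pi fun i => ?_) (continuous_projIcc.comp continuous_snd)
  exact continuous_projIcc.comp (by fun_prop)

theorem unI_cubI (q : (M → I) × I) : unI (cubI q) = q := by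
  refine Prod.ext (funext fun i => ?_) ?_
  · have h : (2 * (q.1 i : ℝ) - 1 + 1) / 2 = q.1 i := by ring
    change projIcc 0 1 zero_le_one ((2 * (q.1 i : ℝ) - 1 + 1) / 2) = q.1 i
    rw [h]
    exact projIcc_val zero_le_one _
  · exact projIcc_val zero_le_one _

theorem cubI_unI {x : (M → ℝ) × ℝ} (hx : x ∈ Qb M) : cubI (unI x) = x := by
  refine Prod.ext (funext fun i => ?_) ?_
  · have h1 : |x.1 i| ≤ 1 := (norm_le_pi_norm x.1 i).trans hx.1
    obtain ⟨h2, h3⟩ := abs_le.mp h1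
    change 2 * ((projIcc 0 1 zero_le_one ((x.1 i + 1) / 2) : I) : ℝ) - 1 = x.1 i
    rw [projIcc_of_mem zero_le_one (x := (x.1 i + 1) / 2) ⟨by linarith, by linarith⟩]
    change 2 * ((x.1 i + 1) / 2) - 1 = x.1 i
    ring
  · change ((projIcc 0 1 zero_le_one x.2 : I) : ℝ) = x.2
    rw [projIcc_of_mem zero_le_one ⟨hx.2.1, hx.2.2⟩]

end Vale.Agent.P268.H288
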