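import Vale.Agent.P268.H288.Based

/-!
# From free to based relative spheroids, on the cube `(M → I) × I`

`toB F δ` = the based relative spheroid made from a free spheroid `F` of `(X, A)` and a path `δ`
in `A` from `F topC` to the base point.
-/

set_option linter.unusedSectionVars false

namespace Vale.Agent.P268.H288

open scoped unitInterval Topology Topology.Homotopy
open Set

variable {M : Type*} [Fintype M] {X Y T : Type*} [TopologicalSpace X] [TopologicalSpace Y]
  [TopologicalSpace T]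

/-- The boundary of the cube `(M → I) × I`. -/
def bdC (M : Type*) : Set ((M → I) × I) := {q | q.1 ∈ Cube.boundary M ∨ q.2 = 0 ∨ q.2 = 1}

/-- A point of the top face. -/
noncomputable def topC : (M → I) × I := unI topPt

theorem projIcc_zero : projIcc (0 : ℝ) 1 zero_le_one 0 = 0 := projIcc_left _

theorem projIcc_one : projIcc (0 : ℝ) 1 zero_le_one 1 = 1 := projIcc_right _

theorem unI_mem {x : (M → ℝ) × ℝ} (hx : x ∈ Bb M) : unI x ∈ bdC M := by
  rcases hx with ⟨-, h | h⟩ | ⟨-, h⟩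
  · left
    obtain ⟨i, hi⟩ := exists_norm_eq (y := x.1) (by rw [h]; exact one_pos)
    rw [h, Real.norm_eq_abs] at hi
    refine ⟨i, ?_⟩
    change projIcc 0 1 zero_le_one ((x.1 i + 1) / 2) = 0 ∨
      projIcc 0 1 zero_le_one ((x.1 i + 1) / 2) = 1
    rcases (abs_eq zero_le_one).mp hi with h1 | h1
    · right
      rw [h1, show ((1 : ℝ) + 1) / 2 = 1 by norm_num]
      exact projIcc_one
    · left
      rw [h1, show ((-1 : ℝ) + 1) / 2 = 0 by norm_num]
      exact projIcc_zero
  · right; right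
    change projIcc 0 1 zero_le_one x.2 = 1
    rw [h]
    exact projIcc_one
  · right; left
    change projIcc 0 1 zero_le_one x.2 = 0
    rw [h]
    exact projIcc_zero

theorem cubI_mem_Bb {q : (M → I) × I} (hq : q ∈ bdC M) : cubI q ∈ Bb M := by
  rcases hq with h | h | h
  · exact Or.inl (cubI_side h)
  · exact Or.inr (cubI_rim h)
  · exact Or.inl (cubI_top h)

theorem topC_mem : (topC : (M → I) × I) ∈ bdC M := unI_mem (Or.inl topPt_mem)

/-- The function on `ℝ` of a path on `I`. -/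
noncomputable def xt (δ : I → X) (t : ℝ) : X := δ (projIcc 0 1 zero_le_one t)

theorem xt_zero (δ : I → X) : xt δ 0 = δ 0 := by
  rw [xt, projIcc_zero]

theorem xt_one (δ : I → X) : xt δ 1 = δ 1 := by
  rw [xt, projIcc_one]

/-- The homotopy from a free to a based spheroid. -/
@[irreducible]
noncomputable def basC (F : (M → I) × I → X) (δ : I → X) (s : I) (q : (M → I) × I) : X :=
  bas (fun x => F (unI x)) (xt δ) s (cubI q)

theorem basC_zero (F : (M → I) × I → X) (δ : I → X) (q : (M → I) × I) :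
    basC F δ 0 q = F q := by
  have h := bas_zero (F := fun x => F (unI x)) (δ := xt δ) (cubI_mem q)
  rw [unI_cubI] at h
  rw [basC]
  exact h

theorem continuous_basC {F : T → (M → I) × I → X} {δ : T → I → X}
    (hF : Continuous fun p : T × ((M → I) × I) => F p.1 p.2)
    (hδ : Continuous fun p : T × I => δ p.1 p.2) (h0 : ∀ t, δ t 0 = F t topC) :
    Continuous fun p : T × (I × ((M → I) × I)) => basC (F p.1) (δ p.1) p.2.1 p.2.2 := by
  have h1 : Continuous fun p : T × ((M → ℝ) × ℝ) => F p.1 (unI p.2) :=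
    hF.comp (continuous_fst.prodMk (continuous_unI.comp continuous_snd))
  have h2' : Continuous fun p : T × ℝ => (p.1, projIcc (0 : ℝ) 1 zero_le_one p.2) :=
    continuous_fst.prodMk (continuous_projIcc.comp continuous_snd)
  have h2 : Continuous fun p : T × ℝ => xt (δ p.1) p.2 := hδ.comp h2'
  have h3 := continuous_ext (F := fun t x => F t (unI x)) (δ := fun t => xt (δ t)) h1 h2
    (fun t => by rw [xt_zero, h0]; rfl)
  have h4 : ∀ p : T × (I × ((M → I) × I)),
      0 ≤ ((1 + 3 * (p.2.1 : ℝ)) • cubI p.2.2).2 := fun p =>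
    mul_nonneg (by linarith [p.2.1.2.1]) (cubI_mem p.2.2).2.1
  have h5 : Continuous fun p : T × (I × ((M → I) × I)) =>
      ((1 + 3 * (p.2.1 : ℝ)) • cubI p.2.2 : (M → ℝ) × ℝ) := by
    have := continuous_cubI (M := M)
    fun_prop
  have h6 := h3.comp (continuous_fst.prodMk (Continuous.subtype_mk h5 h4))
  refine h6.congr fun p => ?_
  rw [basC]
  rfl

variable {A : Set X} {B : Set Y} {a : X} {b : Y}

theorem basC_mem {F : (M → I) × I → X} {δ : I → X} (hF : ∀ q ∈ bdC M, F q ∈ A)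
    (hδ : ∀ t, δ t ∈ A) (h0 : δ 0 = F topC) (s : I) {q : (M → I) × I} (hq : q ∈ bdC M) :
    basC F δ s q ∈ A := by
  have h0' : xt δ 0 = F (unI topPt) := by rw [xt_zero, h0]; rfl
  rw [basC]
  exact bas_mem (A := A) (fun x hx => hF _ (unI_mem hx)) (fun t _ => hδ _) h0' s.2
    (cubI_mem_Bb hq)

theorem basC_one {F : (M → I) × I → X} {δ : I → X} (h0 : δ 0 = F topC) {q : (M → I) × I}
    (hq : q.1 ∈ Cube.boundary M ∨ q.2 = 1) : basC F δ 1 q = δ 1 := by
  have h0' : xt δ 0 = F (unI topPt) := by rw [xt_zero, h0]; rfl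
  have h := bas_one (F := fun x => F (unI x)) (δ := xt δ) h0'
    (x := cubI q) (hq.elim cubI_side cubI_top)
  rw [xt_one] at h
  rw [basC]
  exact h

/-- The based spheroid as a continuous map. -/
noncomputable def toBmap (F : C((M → I) × I, X)) (δ : Path (F topC) a) : C((M → I) × I, X) :=
  ⟨fun q => basC F δ 1 q, by
    have h := continuous_basC (T := Unit) (F := fun _ => F) (δ := fun _ => δ)
      (F.continuous.comp continuous_snd) (δ.continuous.comp continuous_snd) (fun _ => δ.source)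
    exact h.comp (by fun_prop : Continuous fun q : (M → I) × I =>
      ((), ((1 : I), q)))⟩

theorem rel_toBmap (F : C((M → I) × I, X)) (δ : Path (F topC) a) (hF : ∀ q ∈ bdC M, F q ∈ A)
    (hδ : ∀ t, δ t ∈ A) : PP.Rel A a (toBmap F δ) where
  rim _ := basC_mem hF hδ δ.source 1 (Or.inr (Or.inl rfl))
  top _ := (basC_one δ.source (Or.inr rfl)).trans δ.target
  side _ hy _ := (basC_one δ.source (Or.inl hy)).trans δ.target

/-- The based relative spheroid of a free one. -/
noncomputable def toB (ha : a ∈ A) (F : C((M → I) × I, X)) (δ : Path (F topC) a)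
    (hF : ∀ q ∈ bdC M, F q ∈ A) (hδ : ∀ t, δ t ∈ A) : Ω^ M (PP X A a) (PP.const ha) :=
  PP.toGL ha (toBmap F δ) (rel_toBmap F δ hF hδ)

theorem toB_apply (ha : a ∈ A) (F : C((M → I) × I, X)) (δ : Path (F topC) a)
    (hF : ∀ q ∈ bdC M, F q ∈ A) (hδ : ∀ t, δ t ∈ A) (y : M → I) (t : I) :
    (toB ha F δ hF hδ y).1 t = basC F δ 1 (y, t) := rfl

/-- Homotopic data give homotopic based spheroids. -/
theorem toB_homotopic {ha : a ∈ A} {F₀ F₁ : C((M → I) × I, X)} {δ₀ : Path (F₀ topC) a}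
    {δ₁ : Path (F₁ topC) a} {hF₀ : ∀ q ∈ bdC M, F₀ q ∈ A} {hF₁ : ∀ q ∈ bdC M, F₁ q ∈ A}
    {hδ₀ : ∀ t, δ₀ t ∈ A} {hδ₁ : ∀ t, δ₁ t ∈ A} (D : C(I × ((M → I) × I), X))
    (hD : ∀ s, ∀ q ∈ bdC M, D (s, q) ∈ A) (hD0 : ∀ q, D (0, q) = F₀ q)
    (hD1 : ∀ q, D (1, q) = F₁ q) (Δ : C(I × I, X)) (hΔ : ∀ p, Δ p ∈ A)
    (hl : ∀ s, Δ (s, 0) = D (s, topC)) (hr : ∀ s, Δ (s, 1) = a) (h0 : ∀ t, Δ (0, t) = δ₀ t)
    (h1 : ∀ t, Δ (1, t) = δ₁ t) :
    GenLoop.Homotopic (toB ha F₀ δ₀ hF₀ hδ₀) (toB ha F₁ δ₁ hF₁ hδ₁) := by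
  rw [PP.homotopic_iff]
  have hc := continuous_basC (T := I) (F := fun s q => D (s, q)) (δ := fun s t => Δ (s, t))
    (D.continuous.comp (by fun_prop)) (Δ.continuous.comp (by fun_prop)) hl
  refine ⟨⟨fun p => basC (fun q => D (p.1, q)) (fun t => Δ (p.1, t)) 1 p.2, ?_⟩, ?_, ?_, ?_⟩
  · exact hc.comp (by fun_prop : Continuous fun p : I × ((M → I) × I) => (p.1, ((1 : I), p.2)))
  · intro q
    change basC (fun q => D (0, q)) (fun t => Δ (0, t)) 1 q = basC F₀ δ₀ 1 q
    congr 1
    · exact funext hD0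
    · exact funext h0
  · intro q
    change basC (fun q => D (1, q)) (fun t => Δ (1, t)) 1 q = basC F₁ δ₁ 1 q
    congr 1
    · exact funext hD1
    · exact funext h1
  · intro s
    refine ⟨fun y => ?_, fun y => ?_, fun y hy t => ?_⟩
    · exact basC_mem (A := A) (F := fun q => D (s, q)) (δ := fun t => Δ (s, t)) (hD s)
        (fun t => hΔ _) (hl s) 1 (Or.inr (Or.inl rfl))
    · exact (basC_one (F := fun q => D (s, q)) (δ := fun t => Δ (s, t)) (hl s)
        (Or.inr rfl)).trans (hr s)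
    · exact (basC_one (F := fun q => D (s, q)) (δ := fun t => Δ (s, t)) (hl s)
        (Or.inl hy)).trans (hr s)

/-- The image of a path. -/
def mapPath (f : C(X, Y)) {x x' : X} {y y' : Y} (δ : Path x x') (h : f x = y) (h' : f x' = y') :
    Path y y' where
  toFun t := f (δ t)
  continuous_toFun := f.continuous.comp δ.continuous
  source' := by rw [δ.source, h]
  target' := by rw [δ.target, h']

/-- Naturality. -/
theorem glMap_toB (f : C(X, Y)) (hf : ∀ x ∈ A, f x ∈ B) (h : f a = b) (ha : a ∈ A) (hb : b ∈ B)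
    (F : C((M → I) × I, X)) (δ : Path (F topC) a) (hF : ∀ q ∈ bdC M, F q ∈ A)
    (hδ : ∀ t, δ t ∈ A) :
    glMap (PP.map f hf h) (PP.map_const f hf h ha hb) (toB ha F δ hF hδ) =
      toB hb (f.comp F) (mapPath f δ rfl h) (fun q hq => hf _ (hF q hq))
        (fun t => hf _ (hδ t)) := by
  refine GenLoop.ext _ _ fun y => PP.ext fun t => ?_
  have key : f (basC F δ 1 (y, t)) = basC (fun q => f (F q)) (fun t => f (δ t)) 1 (y, t) := by
    rw [basC, basC, bas, bas, ext, ext]
    split_ifs <;> rfl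
  exact key

end Vale.Agent.P268.H288
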