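import Vale.Agent.P268.H288.UnM

/-!
# Braids from data of the normal form

Data `b₀, ν₀` on the closed unit ball of `Fin (m + 1) → ℝ` (values in the page on the boundary) are
homotopic, as data, to a relative spheroid `p` of framed configurations, whose type is computed
from free homotopies of the differences and of the normals of the data.
-/

set_option linter.unusedSectionVars false

namespace Vale.Agent.P268.T

open scoped unitInterval Topology Topology.Homotopy RealInnerProductSpace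
open Set Metric Vale.Agent.P268.H288 Vale.Agent.P268.T.A109

variable {V : Type*} [NormedAddCommGroup V] [InnerProductSpace ℝ V] [FiniteDimensional ℝ V]
  (φ : Fr V) {m r : ℕ}

/-- The free braid of data. -/
noncomputable def dataC {b₀ ν₀ : Fin r → (Fin (m + 1) → ℝ) → V} (hb : BData φ.h b₀ ν₀) :
    C((Fin m → I) × I, BX V r) where
  toFun q := (⟨fun i => b₀ i (unM q), hb.inj () (mem_univ _) _ (unM_mem q)⟩,
    fun i => ⟨ν₀ i (unM q), hb.nn () (mem_univ _) i _ (unM_mem q)⟩)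
  continuous_toFun := by
    refine Continuous.prodMk (Continuous.subtype_mk (continuous_pi fun i => ?_) _)
      (continuous_pi fun i => Continuous.subtype_mk ?_ _)
    · exact (hb.cb i).comp_continuous (f := fun q : (Fin m → I) × I => ((), unM q))
        (continuous_const.prodMk continuous_unM) fun q => ⟨mem_univ _, unM_mem q⟩
    · exact (hb.cn i).comp_continuous (f := fun q : (Fin m → I) × I => ((), unM q))
        (continuous_const.prodMk continuous_unM) fun q => ⟨mem_univ _, unM_mem q⟩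

theorem dataC_mem {b₀ ν₀ : Fin r → (Fin (m + 1) → ℝ) → V} (hb : BData φ.h b₀ ν₀) :
    ∀ q ∈ bdC (Fin m), dataC φ hb q ∈ φ.BA r := by
  intro q hq
  refine ⟨fun i => ?_, fun i => Subtype.ext ?_⟩
  · have h := hb.bh () (mem_univ _) i (unM q) (norm_unM_eq hq)
    rw [real_inner_comm] at h
    exact h
  · exact hb.nh () (mem_univ _) i (unM q) (norm_unM_eq hq)

/-- The homotopy `basC` as a family of data. -/
theorem exists_bFam {b₀ ν₀ : Fin r → (Fin (m + 1) → ℝ) → V} (hb : BData φ.h b₀ ν₀)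
    (δ : Path (dataC φ hb topC) (φ.bx r)) (hδ : ∀ t, δ t ∈ φ.BA r) :
    ∃ b ν : ℝ → Fin r → (Fin (m + 1) → ℝ) → V, BFam (Icc (0 : ℝ) 1) φ.h b ν ∧
      (∀ i x, b 0 i x = b₀ i x) ∧ (∀ i x, ν 0 i x = ν₀ i x) ∧
      (∀ i x, b 1 i x = ((toB (φ.bx_mem r) (dataC φ hb) δ (dataC_mem φ hb) hδ
        (cubeM x).1).1 (cubeM x).2).1.1 i) ∧
      (∀ i x, ν 1 i x = ((toB (φ.bx_mem r) (dataC φ hb) δ (dataC_mem φ hb) hδ
        (cubeM x).1).1 (cubeM x).2).2 i) := by
  classical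
  let c := dataC φ hb
  let B : ℝ → (Fin (m + 1) → ℝ) → BX V r := fun t x =>
    basC c δ (projIcc 0 1 zero_le_one t) (cubeM x)
  have hB : Continuous fun p : ℝ × (Fin (m + 1) → ℝ) => B p.1 p.2 := by
    have h := continuous_basC (T := Unit) (F := fun _ => c) (δ := fun _ => δ)
      (c.continuous.comp continuous_snd) (δ.continuous.comp continuous_snd) (fun _ => δ.source)
    have h2 : Continuous fun p : ℝ × (Fin (m + 1) → ℝ) =>
        ((), (projIcc (0 : ℝ) 1 zero_le_one p.1, cubeM p.2)) :=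
      continuous_const.prodMk ((continuous_projIcc.comp continuous_fst).prodMk
        (continuous_cubeM.comp continuous_snd))
    exact h.comp h2
  have p0 : projIcc (0 : ℝ) 1 zero_le_one 0 = 0 := projIcc_left _
  have p1 : projIcc (0 : ℝ) 1 zero_le_one 1 = 1 := projIcc_right _
  have hB0 : ∀ x ∈ closedBall (0 : Fin (m + 1) → ℝ) 1, B 0 x = c (cubeM x) := fun x _ => by
    change basC c δ (projIcc 0 1 zero_le_one 0) (cubeM x) = c (cubeM x)
    rw [p0, basC_zero]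
  have hc0 : ∀ x ∈ closedBall (0 : Fin (m + 1) → ℝ) 1, unM (cubeM x) = x := fun x hx =>
    unM_cubeM (mem_closedBall_zero_iff.mp hx)
  have hBb : ∀ t, ∀ x : Fin (m + 1) → ℝ, ‖x‖ = 1 → B t x ∈ φ.BA r := fun t x hx =>
    basC_mem (A := φ.BA r) (dataC_mem φ hb) hδ δ.source _ (cubeM_mem_bdC hx)
  let b : ℝ → Fin r → (Fin (m + 1) → ℝ) → V := fun t i x =>
    if x ∈ closedBall (0 : Fin (m + 1) → ℝ) 1 then (B t x).1.1 i else
      if t = 1 then (B 1 x).1.1 i else b₀ i x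
  let ν : ℝ → Fin r → (Fin (m + 1) → ℝ) → V := fun t i x =>
    if x ∈ closedBall (0 : Fin (m + 1) → ℝ) 1 then (B t x).2 i else
      if t = 1 then (B 1 x).2 i else ν₀ i x
  have eb : ∀ t i, ∀ x ∈ closedBall (0 : Fin (m + 1) → ℝ) 1, b t i x = (B t x).1.1 i :=
    fun t i x hx => if_pos hx
  have eν : ∀ t i, ∀ x ∈ closedBall (0 : Fin (m + 1) → ℝ) 1, ν t i x = (B t x).2 i :=
    fun t i x hx => if_pos hx
  have hsph : ∀ x : Fin (m + 1) → ℝ, ‖x‖ = 1 → x ∈ closedBall (0 : Fin (m + 1) → ℝ) 1 :=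
    fun x hx => mem_closedBall_zero_iff.mpr hx.le
  refine ⟨b, ν, ⟨fun i => ?_, fun i => ?_, fun t _ i x hx => ?_, fun t _ x hx => ?_,
    fun t _ i x hx => ?_, fun t _ i x hx => ?_⟩, fun i x => ?_, fun i x => ?_, fun i x => ?_,
    fun i x => ?_⟩
  · refine ((continuous_cen i).comp hB).continuousOn.congr ?_
    rintro ⟨t, x⟩ ⟨-, hx⟩
    exact eb t i x hx
  · refine ((continuous_nrm i).comp hB).continuousOn.congr ?_
    rintro ⟨t, x⟩ ⟨-, hx⟩
    exact eν t i x hx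
  · rw [eν t i x hx]
    exact ((B t x).2 i).2
  · have h : (fun a => b t a x) = (B t x).1.1 := funext fun i => eb t i x hx
    rw [h]
    exact (B t x).1.2
  · rw [eb t i x (hsph x hx), real_inner_comm]
    exact (hBb t x hx).1 i
  · rw [eν t i x (hsph x hx)]
    exact congrArg Subtype.val ((hBb t x hx).2 i)
  · by_cases hx : x ∈ closedBall (0 : Fin (m + 1) → ℝ) 1
    · rw [eb 0 i x hx, hB0 x hx]
      change b₀ i (unM (cubeM x)) = b₀ i x
      rw [hc0 x hx]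
    · change (if x ∈ closedBall (0 : Fin (m + 1) → ℝ) 1 then (B 0 x).1.1 i else
        if (0 : ℝ) = 1 then (B 1 x).1.1 i else b₀ i x) = b₀ i x
      rw [if_neg hx, if_neg zero_ne_one]
  · by_cases hx : x ∈ closedBall (0 : Fin (m + 1) → ℝ) 1
    · rw [eν 0 i x hx, hB0 x hx]
      change ν₀ i (unM (cubeM x)) = ν₀ i x
      rw [hc0 x hx]
    · change (if x ∈ closedBall (0 : Fin (m + 1) → ℝ) 1 then ((B 0 x).2 i : V) else
        if (0 : ℝ) = 1 then ((B 1 x).2 i : V) else ν₀ i x) = ν₀ i x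
      rw [if_neg hx, if_neg zero_ne_one]
  · have h1 : b 1 i x = (B 1 x).1.1 i := by
      change (if x ∈ closedBall (0 : Fin (m + 1) → ℝ) 1 then (B 1 x).1.1 i else
        if (1 : ℝ) = 1 then (B 1 x).1.1 i else b₀ i x) = _
      rw [if_pos rfl, ite_self]
    rw [h1]
    change (basC c δ (projIcc 0 1 zero_le_one 1) (cubeM x)).1.1 i = (basC c δ 1 (cubeM x)).1.1 i
    rw [p1]
  · have h1 : ν 1 i x = (B 1 x).2 i := by
      change (if x ∈ closedBall (0 : Fin (m + 1) → ℝ) 1 then ((B 1 x).2 i : V) else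
        if (1 : ℝ) = 1 then ((B 1 x).2 i : V) else ν₀ i x) = _
      rw [if_pos rfl, ite_self]
    rw [h1]
    change ((basC c δ (projIcc 0 1 zero_le_one 1) (cubeM x)).2 i : V) =
      (basC c δ 1 (cubeM x)).2 i
    rw [p1]

/-- **Braids from data, with their types.** -/
theorem exists_braid_of_data [Nonempty (Fin m)] (hV : 4 ≤ Module.finrank ℝ V)
    {b₀ ν₀ : Fin r → (Fin (m + 1) → ℝ) → V} (hb : BData φ.h b₀ ν₀)
    (G : C((Fin m → I) × I, V0 V)) (hG : ∀ q ∈ bdC (Fin m), G q ∈ φ.A0)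
    (L : Matrix (Fin r) (Fin r) ℤ) (hdiag : ∀ i, L i i = 1) (hlow : ∀ i j, i < j → L j i = 0)
    (hpair : ∀ i j : Fin r, i < j → ∃ D : C(I × ((Fin m → I) × I), V), (∀ p, D p ≠ 0) ∧
      (∀ q, D (0, q) = b₀ j (unM q) - b₀ i (unM q)) ∧
      (∀ s, ∀ q ∈ bdC (Fin m), ⟪φ.h, D (s, q)⟫ = 0) ∧
      ((L i j = 1 ∧ ∀ q, D (1, q) = G q) ∨ (L i j = 0 ∧ ∀ q, ⟪φ.h, D (1, q)⟫ = 0)))
    (htw : ∀ i : Fin r, ∃ N : C(I × ((Fin m → I) × I), S1 V),
      (∀ q, (N (0, q) : V) = ν₀ i (unM q)) ∧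
      (∀ q, (N (1, q) : V) = rf (G q : V) φ.h) ∧ ∀ s, ∀ q ∈ bdC (Fin m), N (s, q) = φ.h1) :
    ∃ p : φ.BrL (Fin m) r, φ.HasType (gcl φ hV G hG) L (hcl p) ∧
      ∃ b ν : ℝ → Fin r → (Fin (m + 1) → ℝ) → V, BFam (Icc (0 : ℝ) 1) φ.h b ν ∧
        (∀ i x, b 0 i x = b₀ i x) ∧ (∀ i x, ν 0 i x = ν₀ i x) ∧
        (∀ i x, b 1 i x = ((p (cubeM x).1).1 (cubeM x).2).1.1 i) ∧
        (∀ i x, ν 1 i x = ((p (cubeM x).1).1 (cubeM x).2).2 i) := by
  obtain ⟨δ, hδ⟩ := exists_conf_path φ hV (dataC_mem φ hb _ topC_mem) (φ.bx_mem r)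
  refine ⟨toB (φ.bx_mem r) (dataC φ hb) δ (dataC_mem φ hb) hδ, ?_, exists_bFam φ hb δ hδ⟩
  refine hasType_toB φ hV (dataC φ hb) δ (dataC_mem φ hb) hδ G hG L hdiag hlow hpair ?_
  intro i
  obtain ⟨N, h0, h1, h2⟩ := htw i
  exact ⟨N, fun q => Subtype.ext (h0 q), h1, h2⟩

end Vale.Agent.P268.T
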