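import Mathlib

/-!
# `GL_r(ℤ)` is generated by elementary moves

Form used in topology: an equivalence relation on square integer matrices which is invariant
under the elementary congruences (slides and sign changes) is invariant under all congruences.
-/

namespace Vale.Agent.P268.H288

open Matrix

variable {ι : Type*} [Fintype ι] [DecidableEq ι]

/-- The sign change at `i`. -/
def sgnAt (i : ι) : Matrix ι ι ℤ := diagonal (Function.update 1 i (-1))

theorem mul_sgnAt_same (P : Matrix ι ι ℤ) (i a : ι) : (P * sgnAt i) a i = - P a i := by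
  rw [sgnAt, mul_diagonal, Function.update_self]; ring

theorem mul_sgnAt_ne (P : Matrix ι ι ℤ) (i a b : ι) (h : b ≠ i) :
    (P * sgnAt i) a b = P a b := by
  rw [sgnAt, mul_diagonal, Function.update_of_ne h]; simp

theorem sgnAt_mul_self (i : ι) : sgnAt i * sgnAt i = (1 : Matrix ι ι ℤ) := by
  rw [sgnAt, diagonal_mul_diagonal, ← diagonal_one]
  congr 1
  funext j
  rcases eq_or_ne j i with rfl | h
  · simp
  · simp [Function.update_of_ne h]

/-- A property of matrices insensitive to elementary column operations. -/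
structure ElemInv (S : Matrix ι ι ℤ → Prop) : Prop where
  one : S 1
  trv : ∀ P i j, i ≠ j → (S (P * transvection i j 1) ↔ S P)
  sgn : ∀ P i, (S (P * sgnAt i) ↔ S P)

namespace ElemInv

variable {S : Matrix ι ι ℤ → Prop} (hS : ElemInv S)
include hS

theorem trv_nat (P : Matrix ι ι ℤ) {i j : ι} (h : i ≠ j) (n : ℕ) :
    S (P * transvection i j (n : ℤ)) ↔ S P := by
  induction n with
  | zero => simp
  | succ n ih =>
    rw [← ih, ← hS.trv (P * transvection i j (n : ℤ)) i j h, Matrix.mul_assoc,
      transvection_mul_transvection_same i j h]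
    push_cast
    rfl

theorem trv_int (P : Matrix ι ι ℤ) {i j : ι} (h : i ≠ j) (c : ℤ) :
    S (P * transvection i j c) ↔ S P := by
  obtain ⟨n, rfl | rfl⟩ := c.eq_nat_or_neg
  · exact hS.trv_nat P h n
  · rw [← hS.trv_nat (P * transvection i j (-(n : ℤ))) h n, Matrix.mul_assoc,
      transvection_mul_transvection_same i j h, neg_add_cancel, transvection_zero,
      Matrix.mul_one]

/-- rows in `K` are unit rows. -/
def Good (K : Finset ι) (P : Matrix ι ι ℤ) : Prop := ∀ k ∈ K, ∀ j, P k j = (1 : Matrix ι ι ℤ) k j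

omit hS in
theorem Good.trv {K : Finset ι} {P : Matrix ι ι ℤ} (h : Good K P) {i : ι} (hi : i ∉ K) (j : ι)
    (c : ℤ) : Good K (P * transvection i j c) := by
  intro k hk b
  rcases eq_or_ne b j with rfl | hb
  · rw [mul_transvection_apply_same, h k hk, h k hk i, one_apply_ne (i := k) (j := i)]
    · simp
    · rintro rfl; exact hi hk
  · rw [mul_transvection_apply_of_ne _ _ _ _ hb, h k hk]

omit hS in
theorem Good.sgn {K : Finset ι} {P : Matrix ι ι ℤ} (h : Good K P) {i : ι} (hi : i ∉ K) :
    Good K (P * sgnAt i) := by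
  intro k hk b
  rcases eq_or_ne b i with rfl | hb
  · rw [mul_sgnAt_same, h k hk, one_apply_ne]
    · simp
    · rintro rfl; exact hi hk
  · rw [mul_sgnAt_ne _ _ _ _ hb, h k hk]

omit hS in
theorem inv_trv {P Q : Matrix ι ι ℤ} (h : P * Q = 1) {i j : ι} (hij : i ≠ j) (c : ℤ) :
    (P * transvection i j c) * (transvection i j (-c) * Q) = 1 := by
  rw [Matrix.mul_assoc, ← Matrix.mul_assoc (transvection i j c),
    transvection_mul_transvection_same i j hij, add_neg_cancel, transvection_zero,
    Matrix.one_mul, h]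

omit hS in
theorem inv_sgn {P Q : Matrix ι ι ℤ} (h : P * Q = 1) (i : ι) :
    (P * sgnAt i) * (sgnAt i * Q) = 1 := by
  rw [Matrix.mul_assoc, ← Matrix.mul_assoc (sgnAt i), sgnAt_mul_self, Matrix.one_mul, h]

/-- Clearing the entries of row `k` in the columns `A ⊆ K`. -/
theorem clear {K : Finset ι} {k : ι} (hk : k ∉ K)
    (IH : ∀ P Q : Matrix ι ι ℤ, P * Q = 1 → Good (insert k K) P → S P) (A : Finset ι) :
    A ⊆ K → ∀ P Q : Matrix ι ι ℤ, P * Q = 1 → Good K P → (∀ i ∉ A, P k i = (1 : Matrix ι ι ℤ) k i) →
      S P := by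
  induction A using Finset.induction_on with
  | empty =>
    intro _ P Q hPQ hG hrow
    refine IH P Q hPQ ?_
    intro k' hk' j
    rcases Finset.mem_insert.mp hk' with rfl | h
    · exact hrow j (Finset.notMem_empty j)
    · exact hG k' h j
  | insert a A ha ihA =>
    intro hAK P Q hPQ hG hrow
    have haK : a ∈ K := hAK (Finset.mem_insert_self a A)
    have hka : k ≠ a := by rintro rfl; exact hk haK
    have hkA : k ∉ insert a A := fun h => hk (hAK h)
    have hkk : P k k = 1 := by rw [hrow k hkA, one_apply_eq]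
    rw [← hS.trv_int P hka (-(P k a))]
    refine ihA (fun x hx => hAK (Finset.mem_insert_of_mem hx)) _ _
      (inv_trv hPQ hka _) (hG.trv hk a _) ?_
    intro i hi
    rcases eq_or_ne i a with rfl | hia
    · rw [mul_transvection_apply_same, hkk, one_apply_ne hka]; ring
    · rw [mul_transvection_apply_of_ne _ _ _ _ hia]
      refine hrow i ?_
      rw [Finset.mem_insert]
      rintro (h | h)
      · exact hia h
      · exact hi h

/-- Pivot `±1` at `(k, k)`. -/
theorem pivot {K : Finset ι} {k : ι} (hk : k ∉ K)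
    (IH : ∀ P Q : Matrix ι ι ℤ, P * Q = 1 → Good (insert k K) P → S P)
    {P Q : Matrix ι ι ℤ} (hPQ : P * Q = 1) (hG : Good K P) (hkk : P k k = 1 ∨ P k k = -1)
    (hrow : ∀ i ∉ K, i ≠ k → P k i = 0) : S P := by
  rcases hkk with hkk | hkk
  · refine hS.clear hk IH K (Finset.Subset.refl K) P Q hPQ hG ?_
    intro i hi
    rcases eq_or_ne i k with rfl | hik
    · rw [hkk, one_apply_eq]
    · rw [hrow i hi hik, one_apply_ne hik.symm]
  · rw [← hS.sgn P k]
    refine hS.clear hk IH K (Finset.Subset.refl K) _ _ (inv_sgn hPQ k) (hG.sgn hk) ?_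
    intro i hi
    rcases eq_or_ne i k with rfl | hik
    · rw [mul_sgnAt_same, hkk, one_apply_eq]; norm_num
    · rw [mul_sgnAt_ne _ _ _ _ hik, hrow i hi hik, one_apply_ne hik.symm]

/-- Euclid's algorithm in row `k`. -/
theorem euclid {K : Finset ι} {k : ι} (hk : k ∉ K)
    (IH : ∀ P Q : Matrix ι ι ℤ, P * Q = 1 → Good (insert k K) P → S P) (n : ℕ) :
    ∀ P Q : Matrix ι ι ℤ, P * Q = 1 → Good K P → (∑ i ∈ Kᶜ, (P k i).natAbs = n) → S P := by
  induction n using Nat.strong_induction_on with
  | _ n ihn =>
  intro P Q hPQ hG hn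
  by_cases hA : ∃ i ∈ Kᶜ, ∃ j ∈ Kᶜ, i ≠ j ∧ P k i ≠ 0 ∧ (P k i).natAbs ≤ (P k j).natAbs
  · obtain ⟨i, hi, j, hj, hij, hi0, hle⟩ := hA
    have hiK : i ∉ K := Finset.mem_compl.mp hi
    obtain ⟨c, hc⟩ : ∃ c : ℤ, (P k j + P k i * c).natAbs < (P k j).natAbs := by
      rcases lt_or_gt_of_ne hi0 with h | h
      · rcases le_or_gt 0 (P k j) with h' | h'
        · exact ⟨1, by omega⟩
        · exact ⟨-1, by omega⟩
      · rcases le_or_gt 0 (P k j) with h' | h'
        · exact ⟨-1, by omega⟩
        · exact ⟨1, by omega⟩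
    rw [← hS.trv_int P hij c]
    refine ihn (∑ b ∈ Kᶜ, ((P * transvection i j c) k b).natAbs) ?_ _ _ (inv_trv hPQ hij c)
      (hG.trv hiK j c) rfl
    rw [← hn]
    refine Finset.sum_lt_sum ?_ ⟨j, hj, ?_⟩
    · intro b _
      rcases eq_or_ne b j with rfl | hb
      · rw [mul_transvection_apply_same, mul_comm c]
        exact hc.le
      · rw [mul_transvection_apply_of_ne _ _ _ _ hb]
    · rw [mul_transvection_apply_same, mul_comm c]
      exact hc
  · push Not at hA
    -- the unit formula
    have hQ : ∀ i ∈ K, Q i k = 0 := by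
      intro i hi
      have h1 : (P * Q) i k = 0 := by
        rw [hPQ, one_apply_ne]; rintro rfl; exact hk hi
      rw [mul_apply] at h1
      have h2 : ∀ j, P i j * Q j k = if i = j then Q j k else 0 := by
        intro j
        rw [hG i hi j, one_apply]; split_ifs <;> simp
      simpa [h2] using h1
    have h1 : ∑ i ∈ Kᶜ, P k i * Q i k = 1 := by
      have h2 : (P * Q) k k = 1 := by rw [hPQ, one_apply_eq]
      rw [mul_apply, ← Finset.sum_add_sum_compl K] at h2
      rw [Finset.sum_eq_zero (s := K) (fun i hi => by rw [hQ i hi, mul_zero]), zero_add] at h2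
      exact h2
    obtain ⟨i₀, hi₀, hne⟩ : ∃ i ∈ Kᶜ, P k i ≠ 0 := by
      by_contra hcon
      push Not at hcon
      rw [Finset.sum_eq_zero (fun i hi => by rw [hcon i hi, zero_mul])] at h1
      exact zero_ne_one h1
    have hother : ∀ i ∈ Kᶜ, i ≠ i₀ → P k i = 0 := by
      intro i hi hii
      by_contra h0
      rcases le_total (P k i).natAbs (P k i₀).natAbs with h | h
      · exact absurd h (not_le.mpr (hA i hi i₀ hi₀ hii h0))
      · exact absurd h (not_le.mpr (hA i₀ hi₀ i hi hii.symm hne))
    have hunit : P k i₀ = 1 ∨ P k i₀ = -1 := by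
      rw [Finset.sum_eq_single i₀ (fun i hi hii => by rw [hother i hi hii, zero_mul])
        (fun h => absurd hi₀ h)] at h1
      exact Int.isUnit_iff.mp (IsUnit.of_mul_eq_one _ h1)
    have hi₀K : i₀ ∉ K := Finset.mem_compl.mp hi₀
    rcases eq_or_ne i₀ k with rfl | hik
    · exact hS.pivot hk IH hPQ hG hunit (fun i hi hii => hother i (Finset.mem_compl.mpr hi) hii)
    · have hkk : P k k = 0 := hother k (Finset.mem_compl.mpr hk) hik.symm
      rw [← hS.trv_int P hik 1, ← hS.trv_int _ hik.symm (-1)]
      refine hS.pivot hk IH (inv_trv (inv_trv hPQ hik 1) hik.symm (-1))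
        ((hG.trv hi₀K k 1).trv hk i₀ (-1)) ?_ ?_
      · rw [mul_transvection_apply_of_ne _ _ _ _ hik.symm, mul_transvection_apply_same, hkk]
        simpa using hunit
      · intro i hi hii
        rcases eq_or_ne i i₀ with rfl | hi2
        · rw [mul_transvection_apply_same, mul_transvection_apply_of_ne _ _ _ _ hik,
            mul_transvection_apply_same, hkk]
          ring
        · rw [mul_transvection_apply_of_ne _ _ _ _ hi2, mul_transvection_apply_of_ne _ _ _ _ hii]
          exact hother i (Finset.mem_compl.mpr hi) hi2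

theorem all_aux (n : ℕ) : ∀ K : Finset ι, Kᶜ.card = n → ∀ P Q : Matrix ι ι ℤ, P * Q = 1 →
    Good K P → S P := by
  induction n with
  | zero =>
    intro K hK P Q _ hG
    have hK' : ∀ k, k ∈ K := by
      intro k
      by_contra h
      have : k ∈ Kᶜ := Finset.mem_compl.mpr h
      rw [Finset.card_eq_zero.mp hK] at this
      exact absurd this (Finset.notMem_empty k)
    have : P = 1 := by
      ext k j
      exact hG k (hK' k) j
    rw [this]
    exact hS.one
  | succ n ih =>
    intro K hK P Q hPQ hG
    obtain ⟨k, hk⟩ : Kᶜ.Nonempty := by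
      rw [← Finset.card_pos, hK]; exact Nat.succ_pos n
    have hkK : k ∉ K := Finset.mem_compl.mp hk
    refine hS.euclid hkK (ih (insert k K) ?_) _ P Q hPQ hG rfl
    rw [Finset.compl_insert, Finset.card_erase_of_mem hk, hK]
    rfl

/-- A property of integer matrices insensitive to elementary column operations and true for the
identity is true for all invertible matrices. -/
theorem all {P Q : Matrix ι ι ℤ} (h : P * Q = 1) : S P :=
  hS.all_aux _ ∅ rfl P Q h (fun _ hk => absurd hk (Finset.notMem_empty _))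

end ElemInv

/-- **Congruences over `ℤ` are generated by slides and sign changes.** -/
theorem congruence_of_elementary {R : Matrix ι ι ℤ → Matrix ι ι ℤ → Prop}
    (hR : Equivalence R)
    (slide : ∀ L i j, i ≠ j → R L ((transvection i j 1)ᵀ * L * transvection i j 1))
    (sign : ∀ L i, R L ((sgnAt i)ᵀ * L * sgnAt i))
    (L : Matrix ι ι ℤ) {P Q : Matrix ι ι ℤ} (h : P * Q = 1) : R L (Pᵀ * L * P) := by
  have key : ElemInv (fun P : Matrix ι ι ℤ => R L (Pᵀ * L * P)) := by
    refine ⟨by simpa using hR.refl L, ?_, ?_⟩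
    · intro P i j hij
      have h1 := slide (Pᵀ * L * P) i j hij
      have h2 : (transvection i j 1)ᵀ * (Pᵀ * L * P) * transvection i j (1 : ℤ) =
          (P * transvection i j 1)ᵀ * L * (P * transvection i j 1) := by
        rw [transpose_mul]; simp only [Matrix.mul_assoc]
      rw [h2] at h1
      exact ⟨fun h => hR.trans h (hR.symm h1), fun h => hR.trans h h1⟩
    · intro P i
      have h1 := sign (Pᵀ * L * P) i
      have h2 : (sgnAt i)ᵀ * (Pᵀ * L * P) * sgnAt i =
          (P * sgnAt i)ᵀ * L * (P * sgnAt i) := by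
        rw [transpose_mul]; simp only [Matrix.mul_assoc]
      rw [h2] at h1
      exact ⟨fun h => hR.trans h (hR.symm h1), fun h => hR.trans h h1⟩
  exact key.all h

/-- Invariance under permutations, one slide and one sign change is enough. -/
theorem congruence_of_one {R : Matrix ι ι ℤ → Matrix ι ι ℤ → Prop} (hR : Equivalence R)
    (perm : ∀ (L : Matrix ι ι ℤ) (σ : Equiv.Perm ι), R L (L.submatrix σ σ))
    (slide : ∀ i₀ j₀ : ι, i₀ ≠ j₀ → ∃ i j : ι, i ≠ j ∧
      ∀ L, R L ((transvection i j 1)ᵀ * L * transvection i j 1))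
    (sign : ι → ∃ i : ι, ∀ L, R L ((sgnAt i)ᵀ * L * sgnAt i))
    (L : Matrix ι ι ℤ) {P Q : Matrix ι ι ℤ} (h : P * Q = 1) : R L (Pᵀ * L * P) := by
  refine congruence_of_elementary hR ?_ ?_ L h
  · intro L i j hij
    obtain ⟨a, b, hab, hs⟩ := slide i j hij
    obtain ⟨σ, hσa, hσb⟩ : ∃ σ : Equiv.Perm ι, σ a = i ∧ σ b = j := by
      refine ⟨(Equiv.swap a i).trans (Equiv.swap (Equiv.swap a i b) j), ?_, ?_⟩
      · rw [Equiv.trans_apply, Equiv.swap_apply_left, Equiv.swap_apply_of_ne_of_ne]
        · intro h1
          have h2 : a = b := (Equiv.swap a i).injective (by rw [Equiv.swap_apply_left, ← h1])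
          exact hab h2
        · exact hij
      · rw [Equiv.trans_apply, Equiv.swap_apply_left]
    have h1 := hR.trans (perm L σ) (hs (L.submatrix σ σ))
    have h2 := hR.trans h1 (perm _ σ.symm)
    have h3 : (transvection a b (1 : ℤ)).submatrix σ.symm σ.symm = transvection i j 1 := by
      ext x y
      rw [submatrix_apply, transvection, transvection, Matrix.add_apply, Matrix.add_apply,
        one_apply, one_apply, single_apply, single_apply]
      simp only [EmbeddingLike.apply_eq_iff_eq]
      congr 1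
      have e1 : (a = σ.symm x) ↔ (i = x) := by
        rw [← hσa, Equiv.eq_symm_apply]
      have e2 : (b = σ.symm y) ↔ (j = y) := by
        rw [← hσb, Equiv.eq_symm_apply]
      simp only [e1, e2]
    have h4 : ((transvection a b (1 : ℤ))ᵀ * L.submatrix σ σ * transvection a b 1).submatrix
        σ.symm σ.symm = (transvection i j 1)ᵀ * L * transvection i j 1 := by
      rw [← h3, ← submatrix_mul_equiv _ _ σ.symm σ.symm σ.symm,
        ← submatrix_mul_equiv _ _ σ.symm σ.symm σ.symm, submatrix_submatrix, transpose_submatrix]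
      congr 2
      ext x y
      simp
    rw [h4] at h2
    exact h2
  · intro L i
    obtain ⟨a, hs⟩ := sign i
    set σ : Equiv.Perm ι := Equiv.swap a i with hσ
    have hσa : σ a = i := Equiv.swap_apply_left a i
    have h1 := hR.trans (perm L σ) (hs (L.submatrix σ σ))
    have h2 := hR.trans h1 (perm _ σ.symm)
    have h3 : (sgnAt a).submatrix σ.symm σ.symm = sgnAt i := by
      ext x y
      rw [submatrix_apply, sgnAt, sgnAt, diagonal_apply, diagonal_apply]
      have e1 : (σ.symm x = a) ↔ (x = i) := by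
        rw [← hσa, Equiv.symm_apply_eq]
      by_cases hxy : x = y
      · subst hxy
        simp only [if_true]
        by_cases hx : x = i
        · subst hx
          have : σ.symm x = a := e1.mpr rfl
          rw [this, Function.update_self, Function.update_self]
        · rw [Function.update_of_ne hx, Function.update_of_ne (fun h => hx (e1.mp h))]
          rfl
      · rw [if_neg hxy, if_neg (fun h => hxy (σ.symm.injective h))]
    have h4 : ((sgnAt a)ᵀ * L.submatrix σ σ * sgnAt a).submatrix σ.symm σ.symm =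
        (sgnAt i)ᵀ * L * sgnAt i := by
      rw [← h3, ← submatrix_mul_equiv _ _ σ.symm σ.symm σ.symm,
        ← submatrix_mul_equiv _ _ σ.symm σ.symm σ.symm, submatrix_submatrix, transpose_submatrix]
      congr 2
      ext x y
      simp
    rw [h4] at h2
    exact h2

/-- Reduction of congruences between different index types to one index type. -/
theorem exists_equiv_of_congruent {α β : Type*} [Fintype α] [Fintype β] [DecidableEq α]
    [DecidableEq β] {A : Matrix α α ℤ} {B : Matrix β β ℤ}
    (h : ∃ (P : Matrix β α ℤ) (Q : Matrix α β ℤ), Q * P = 1 ∧ P * Q = 1 ∧ Pᵀ * B * P = A) :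
    ∃ (e : α ≃ β) (P Q : Matrix α α ℤ), P * Q = 1 ∧ Q * P = 1 ∧
      Pᵀ * B.submatrix e e * P = A := by
  obtain ⟨P, Q, h1, h2, h3⟩ := h
  have hcard : Fintype.card α = Fintype.card β := by
    refine card_eq_of_linearEquiv ℤ (LinearEquiv.ofLinearMap P.mulVecLin Q.mulVecLin ?_ ?_)
    · rw [← mulVecLin_mul, h2, mulVecLin_one]
    · rw [← mulVecLin_mul, h1, mulVecLin_one]
  let e : α ≃ β := Fintype.equivOfCardEq hcard
  refine ⟨e, P.submatrix e id, Q.submatrix id e, ?_, ?_, ?_⟩
  · have := submatrix_mul P Q e id e Function.bijective_id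
    rw [h2] at this
    rw [← this]
    exact submatrix_one_equiv e
  · rw [submatrix_mul_equiv Q P id e id, h1]
    exact submatrix_one id Function.injective_id
  · rw [transpose_submatrix, submatrix_mul_equiv, submatrix_mul_equiv, h3]
    rfl

end Vale.Agent.P268.H288
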