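import Vale.Agent.P268.H288.Elem

/-!
# `SL_r(ℤ)` is generated by transvections

A property of integer matrices which is insensitive to elementary column operations (slides) and
true for the identity is true for all matrices of determinant `1`.
-/

namespace Vale.Agent.P268.H288

open Matrix

variable {ι : Type*} [Fintype ι] [DecidableEq ι]

/-- A property of matrices insensitive to slides. -/
structure SlideInv (S : Matrix ι ι ℤ → Prop) : Prop where
  one : S 1
  trv : ∀ P i j, i ≠ j → (S (P * transvection i j 1) ↔ S P)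

namespace SlideInv

variable {S : Matrix ι ι ℤ → Prop} (hS : SlideInv S)
include hS

theorem trv_nat (P : Matrix ι ι ℤ) {i j : ι} (h : i ≠ j) (n : ℕ) :
    S (P * transvection i j (n : ℤ)) ↔ S P := by
  induction n with
  | zero => simp
  | succ n ih =>
    rw [← ih, ← hS.trv (P * transvection i j (n : ℤ)) i j h, Matrix.mul_assoc,
      transvection_mul_transvection_same i j h]
    push_cast
    rfl

theorem trv_int (P : Matrix ι ι ℤ) {i j : ι} (h : i ≠ j) (c : ℤ) :
    S (P * transvection i j c) ↔ S P := by
  obtain ⟨n, rfl | rfl⟩ := c.eq_nat_or_neg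
  · exact hS.trv_nat P h n
  · rw [← hS.trv_nat (P * transvection i j (-(n : ℤ))) h n, Matrix.mul_assoc,
      transvection_mul_transvection_same i j h, neg_add_cancel, transvection_zero,
      Matrix.mul_one]

omit hS in
theorem det_trv (P : Matrix ι ι ℤ) {i j : ι} (h : i ≠ j) (c : ℤ) :
    (P * transvection i j c).det = P.det := by
  rw [det_mul, det_transvection_of_ne i j h, mul_one]

/-- Clearing the entries of row `k` in the columns `A ⊆ K`. -/
theorem clear {K : Finset ι} {k : ι} (hk : k ∉ K)
    (IH : ∀ P : Matrix ι ι ℤ, P.det = 1 → ElemInv.Good (insert k K) P → S P) (A : Finset ι) :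
    A ⊆ K → ∀ P : Matrix ι ι ℤ, P.det = 1 → ElemInv.Good K P →
      (∀ i ∉ A, P k i = (1 : Matrix ι ι ℤ) k i) → S P := by
  induction A using Finset.induction_on with
  | empty =>
    intro _ P hP hG hrow
    refine IH P hP ?_
    intro k' hk' j
    rcases Finset.mem_insert.mp hk' with rfl | h
    · exact hrow j (Finset.notMem_empty j)
    · exact hG k' h j
  | insert a A ha ihA =>
    intro hAK P hP hG hrow
    have haK : a ∈ K := hAK (Finset.mem_insert_self a A)
    have hka : k ≠ a := by rintro rfl; exact hk haK
    have hkA : k ∉ insert a A := fun h => hk (hAK h)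
    have hkk : P k k = 1 := by rw [hrow k hkA, one_apply_eq]
    rw [← hS.trv_int P hka (-(P k a))]
    refine ihA (fun x hx => hAK (Finset.mem_insert_of_mem hx)) _
      ((det_trv P hka _).trans hP) (hG.trv hk a _) ?_
    intro i hi
    rcases eq_or_ne i a with rfl | hia
    · rw [mul_transvection_apply_same, hkk, one_apply_ne hka]; ring
    · rw [mul_transvection_apply_of_ne _ _ _ _ hia]
      refine hrow i ?_
      rw [Finset.mem_insert]
      rintro (h | h)
      · exact hia h
      · exact hi h

/-- Pivot `±1` at `(k, k)`. -/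
theorem pivot {K : Finset ι} {k : ι} (hk : k ∉ K)
    (IH : ∀ P : Matrix ι ι ℤ, P.det = 1 → ElemInv.Good (insert k K) P → S P)
    {P : Matrix ι ι ℤ} (hP : P.det = 1) (hG : ElemInv.Good K P) (hkk : P k k = 1 ∨ P k k = -1)
    (hrow : ∀ i ∉ K, i ≠ k → P k i = 0) : S P := by
  rcases hkk with hkk | hkk
  · refine hS.clear hk IH K (Finset.Subset.refl K) P hP hG ?_
    intro i hi
    rcases eq_or_ne i k with rfl | hik
    · rw [hkk, one_apply_eq]
    · rw [hrow i hi hik, one_apply_ne hik.symm]
  · by_cases hj : ∃ j, j ∉ K ∧ j ≠ k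
    · obtain ⟨j, hjK, hjk⟩ := hj
      have h0 : P k j = 0 := hrow j hjK hjk
      rw [← hS.trv_int P hjk.symm (-1), ← hS.trv_int _ hjk 2, ← hS.trv_int _ hjk.symm (-1)]
      have e1 : (P * transvection k j (-1 : ℤ)) k j = 1 := by
        rw [mul_transvection_apply_same, h0, hkk]; norm_num
      have e2 : (P * transvection k j (-1 : ℤ)) k k = -1 := by
        rw [mul_transvection_apply_of_ne _ _ _ _ hjk.symm, hkk]
      have e3 : (P * transvection k j (-1 : ℤ) * transvection j k (2 : ℤ)) k k = 1 := by
        rw [mul_transvection_apply_same, e1, e2]; norm_num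
      have e4 : (P * transvection k j (-1 : ℤ) * transvection j k (2 : ℤ)) k j = 1 := by
        rw [mul_transvection_apply_of_ne _ _ _ _ hjk, e1]
      refine hS.clear hk IH K (Finset.Subset.refl K) _ ?_ (((hG.trv hk j _).trv hjK k _).trv hk j _)
        ?_
      · rw [det_trv _ hjk.symm, det_trv _ hjk, det_trv _ hjk.symm, hP]
      · intro i hi
        rcases eq_or_ne i j with rfl | hij
        · rw [mul_transvection_apply_same, e4, e3, one_apply_ne hjk.symm]; norm_num
        · rw [mul_transvection_apply_of_ne _ _ _ _ hij]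
          rcases eq_or_ne i k with rfl | hik
          · rw [e3, one_apply_eq]
          · rw [mul_transvection_apply_of_ne _ _ _ _ hik, mul_transvection_apply_of_ne _ _ _ _ hij,
              hrow i hi hik, one_apply_ne hik.symm]
    · exfalso
      push Not at hj
      have hPk : P = (1 : Matrix ι ι ℤ).updateRow k (P k) := by
        ext i j
        rcases eq_or_ne i k with rfl | hik
        · rw [updateRow_self]
        · rw [updateRow_ne hik]
          refine hG i ?_ j
          by_contra h
          exact hik (hj i h)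
      have h1 : P.det = P k k := by
        conv_lhs => rw [hPk]
        rw [← cramer_transpose_apply, transpose_one, cramer_one]
        rfl
      rw [hP, hkk] at h1
      norm_num at h1

/-- Euclid's algorithm in row `k`. -/
theorem euclid {K : Finset ι} {k : ι} (hk : k ∉ K)
    (IH : ∀ P : Matrix ι ι ℤ, P.det = 1 → ElemInv.Good (insert k K) P → S P) (n : ℕ) :
    ∀ P : Matrix ι ι ℤ, P.det = 1 → ElemInv.Good K P →
      (∑ i ∈ Kᶜ, (P k i).natAbs = n) → S P := by
  induction n using Nat.strong_induction_on with
  | _ n ihn =>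
  intro P hP hG hn
  by_cases hA : ∃ i ∈ Kᶜ, ∃ j ∈ Kᶜ, i ≠ j ∧ P k i ≠ 0 ∧ (P k i).natAbs ≤ (P k j).natAbs
  · obtain ⟨i, hi, j, hj, hij, hi0, hle⟩ := hA
    have hiK : i ∉ K := Finset.mem_compl.mp hi
    obtain ⟨c, hc⟩ : ∃ c : ℤ, (P k j + P k i * c).natAbs < (P k j).natAbs := by
      rcases lt_or_gt_of_ne hi0 with h | h
      · rcases le_or_gt 0 (P k j) with h' | h'
        · exact ⟨1, by omega⟩
        · exact ⟨-1, by omega⟩
      · rcases le_or_gt 0 (P k j) with h' | h'
        · exact ⟨-1, by omega⟩
        · exact ⟨1, by omega⟩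
    rw [← hS.trv_int P hij c]
    refine ihn (∑ b ∈ Kᶜ, ((P * transvection i j c) k b).natAbs) ?_ _
      ((det_trv P hij c).trans hP) (hG.trv hiK j c) rfl
    rw [← hn]
    refine Finset.sum_lt_sum ?_ ⟨j, hj, ?_⟩
    · intro b _
      rcases eq_or_ne b j with rfl | hb
      · rw [mul_transvection_apply_same, mul_comm c]
        exact hc.le
      · rw [mul_transvection_apply_of_ne _ _ _ _ hb]
    · rw [mul_transvection_apply_same, mul_comm c]
      exact hc
  · push Not at hA
    have hPQ : P * P⁻¹ = 1 := by
      refine mul_nonsing_inv P ?_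
      rw [hP]; exact isUnit_one
    -- the unit formula
    have hQ : ∀ i ∈ K, P⁻¹ i k = 0 := by
      intro i hi
      have h1 : (P * P⁻¹) i k = 0 := by
        rw [hPQ, one_apply_ne]; rintro rfl; exact hk hi
      rw [mul_apply] at h1
      have h2 : ∀ j, P i j * P⁻¹ j k = if i = j then P⁻¹ j k else 0 := by
        intro j
        rw [hG i hi j, one_apply]; split_ifs <;> simp
      simpa [h2] using h1
    have h1 : ∑ i ∈ Kᶜ, P k i * P⁻¹ i k = 1 := by
      have h2 : (P * P⁻¹) k k = 1 := by rw [hPQ, one_apply_eq]
      rw [mul_apply, ← Finset.sum_add_sum_compl K] at h2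
      rw [Finset.sum_eq_zero (s := K) (fun i hi => by rw [hQ i hi, mul_zero]), zero_add] at h2
      exact h2
    obtain ⟨i₀, hi₀, hne⟩ : ∃ i ∈ Kᶜ, P k i ≠ 0 := by
      by_contra hcon
      push Not at hcon
      rw [Finset.sum_eq_zero (fun i hi => by rw [hcon i hi, zero_mul])] at h1
      exact zero_ne_one h1
    have hother : ∀ i ∈ Kᶜ, i ≠ i₀ → P k i = 0 := by
      intro i hi hii
      by_contra h0
      rcases le_total (P k i).natAbs (P k i₀).natAbs with h | h
      · exact absurd h (not_le.mpr (hA i hi i₀ hi₀ hii h0))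
      · exact absurd h (not_le.mpr (hA i₀ hi₀ i hi hii.symm hne))
    have hunit : P k i₀ = 1 ∨ P k i₀ = -1 := by
      rw [Finset.sum_eq_single i₀ (fun i hi hii => by rw [hother i hi hii, zero_mul])
        (fun h => absurd hi₀ h)] at h1
      exact Int.isUnit_iff.mp (IsUnit.of_mul_eq_one _ h1)
    have hi₀K : i₀ ∉ K := Finset.mem_compl.mp hi₀
    rcases eq_or_ne i₀ k with rfl | hik
    · exact hS.pivot hk IH hP hG hunit (fun i hi hii => hother i (Finset.mem_compl.mpr hi) hii)
    · have hkk : P k k = 0 := hother k (Finset.mem_compl.mpr hk) hik.symm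
      rw [← hS.trv_int P hik 1, ← hS.trv_int _ hik.symm (-1)]
      refine hS.pivot hk IH ?_ ((hG.trv hi₀K k 1).trv hk i₀ (-1)) ?_ ?_
      · rw [det_trv _ hik.symm, det_trv _ hik, hP]
      · rw [mul_transvection_apply_of_ne _ _ _ _ hik.symm, mul_transvection_apply_same, hkk]
        simpa using hunit
      · intro i hi hii
        rcases eq_or_ne i i₀ with rfl | hi2
        · rw [mul_transvection_apply_same, mul_transvection_apply_of_ne _ _ _ _ hik,
            mul_transvection_apply_same, hkk]
          ring
        · rw [mul_transvection_apply_of_ne _ _ _ _ hi2, mul_transvection_apply_of_ne _ _ _ _ hii]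
          exact hother i (Finset.mem_compl.mpr hi) hi2

theorem all_aux (n : ℕ) : ∀ K : Finset ι, Kᶜ.card = n → ∀ P : Matrix ι ι ℤ, P.det = 1 →
    ElemInv.Good K P → S P := by
  induction n with
  | zero =>
    intro K hK P _ hG
    have hK' : ∀ k, k ∈ K := by
      intro k
      by_contra h
      have : k ∈ Kᶜ := Finset.mem_compl.mpr h
      rw [Finset.card_eq_zero.mp hK] at this
      exact absurd this (Finset.notMem_empty k)
    have : P = 1 := by
      ext k j
      exact hG k (hK' k) j
    rw [this]
    exact hS.one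
  | succ n ih =>
    intro K hK P hP hG
    obtain ⟨k, hk⟩ : Kᶜ.Nonempty := by
      rw [← Finset.card_pos, hK]; exact Nat.succ_pos n
    have hkK : k ∉ K := Finset.mem_compl.mp hk
    refine hS.euclid hkK (ih (insert k K) ?_) _ P hP hG rfl
    rw [Finset.compl_insert, Finset.card_erase_of_mem hk, hK]
    rfl

/-- A property of integer matrices insensitive to slides and true for the identity is true for
all matrices of determinant `1`. -/
theorem all {P : Matrix ι ι ℤ} (h : P.det = 1) : S P :=
  hS.all_aux _ ∅ rfl P h (fun _ hk => absurd hk (Finset.notMem_empty _))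

end SlideInv

/-- **Congruences of determinant one over `ℤ` are generated by slides.** -/
theorem congruence_of_slides {R : Matrix ι ι ℤ → Matrix ι ι ℤ → Prop}
    (hR : Equivalence R)
    (slide : ∀ L i j, i ≠ j → R L ((transvection i j 1)ᵀ * L * transvection i j 1))
    (L : Matrix ι ι ℤ) {P : Matrix ι ι ℤ} (h : P.det = 1) : R L (Pᵀ * L * P) := by
  have key : SlideInv (fun P : Matrix ι ι ℤ => R L (Pᵀ * L * P)) := by
    refine ⟨by simpa using hR.refl L, ?_⟩
    intro P i j hij
    have h1 := slide (Pᵀ * L * P) i j hij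
    have h2 : (transvection i j 1)ᵀ * (Pᵀ * L * P) * transvection i j (1 : ℤ) =
        (P * transvection i j 1)ᵀ * L * (P * transvection i j 1) := by
      rw [transpose_mul]; simp only [Matrix.mul_assoc]
    rw [h2] at h1
    exact ⟨fun h => hR.trans h (hR.symm h1), fun h => hR.trans h h1⟩
  exact key.all h

end Vale.Agent.P268.H288
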