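import Vale.Agent.P268.H288.BasedC
import Vale.Agent.P268.T.A109.Types
import Vale.Agent.P268.T.W196.Below

/-!
# Free homotopy invariance of pair classes

For the pair `(V ∖ 0, H ∖ 0)`, `dim H ≥ 3`, the class of the based spheroid made from a free
spheroid `F` depends only on the free homotopy class of `F`.
-/

set_option linter.unusedSectionVars false

namespace Vale.Agent.P268.H288

open scoped unitInterval Topology Topology.Homotopy RealInnerProductSpace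
open Set Vale.Agent.P268.T.A109

section General

variable {M : Type*} [Fintype M] {X : Type*} [TopologicalSpace X] {A : Set X} {a : X}

/-- A relative spheroid with values in `A` is null-homotopic. -/
theorem homotopic_const_of_mem {ha : a ∈ A} {p : Ω^ M (PP X A a) (PP.const ha)}
    (h : ∀ y t, (p y).1 t ∈ A) : GenLoop.Homotopic p GenLoop.const := by
  rw [PP.homotopic_iff]
  refine ⟨⟨fun z => PP.ofGL p (z.2.1, max z.2.2 z.1), ?_⟩, ?_, ?_, ?_⟩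
  · exact (PP.ofGL p).continuous.comp (by fun_prop)
  · intro q
    have h0 : (0 : I) ≤ q.2 := unitInterval.nonneg'
    change PP.ofGL p (q.1, max q.2 0) = PP.ofGL p q
    rw [max_eq_left h0]
  · intro q
    have h1 : q.2 ≤ (1 : I) := unitInterval.le_one'
    change PP.ofGL p (q.1, max q.2 1) = a
    rw [max_eq_right h1]
    exact (PP.rel_ofGL p).top q.1
  · intro s
    refine ⟨fun y => h _ _, fun y => ?_, fun y hy t => (PP.rel_ofGL p).side y hy _⟩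
    have h1 : s ≤ (1 : I) := unitInterval.le_one'
    change PP.ofGL p (y, max 1 s) = a
    rw [max_eq_left h1]
    exact (PP.rel_ofGL p).top y

theorem basC_mem_all {F : (M → I) × I → X} {δ : I → X} (hF : ∀ q, F q ∈ A)
    (hδ : ∀ t, δ t ∈ A) (s : I) (q : (M → I) × I) : basC F δ s q ∈ A := by
  rw [basC, bas, ext]
  split_ifs
  · exact hF _
  · exact hδ _

theorem hcl_toB_eq_one [DecidableEq M] [Nonempty M] {ha : a ∈ A} {F : C((M → I) × I, X)}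
    {δ : Path (F topC) a} (hF : ∀ q, F q ∈ A) (hδ : ∀ t, δ t ∈ A) :
    hcl (toB ha F δ (fun q _ => hF q) hδ) = 1 := by
  rw [← hcl_one, hcl_eq_iff]
  exact homotopic_const_of_mem fun y t => basC_mem_all hF hδ _ _

end General

variable {V : Type*} [NormedAddCommGroup V] [InnerProductSpace ℝ V] [FiniteDimensional ℝ V]
  (φ : Fr V)

/-- The page of the slab. -/
noncomputable def HH : Submodule ℝ V := (ℝ ∙ φ.h)ᗮ

theorem mem_HH {v : V} : v ∈ HH φ ↔ ⟪φ.h, v⟫ = 0 :=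
  Submodule.mem_orthogonal_singleton_iff_inner_right

theorem h_ne : φ.h ≠ 0 := by
  intro h
  have := φ.hh
  rw [h, norm_zero] at this
  exact zero_ne_one this

theorem finrank_HH : Module.finrank ℝ (HH φ) + 1 = Module.finrank ℝ V := by
  have h1 := Submodule.finrank_add_finrank_orthogonal (ℝ ∙ φ.h)
  rw [finrank_span_singleton (h_ne φ)] at h1
  rw [HH, ← h1, add_comm]

/-- A path in `H ∖ 0` as a function on `ℝ` with values in the space `H`. -/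
noncomputable def fH (f : C(I, V0 V)) (hf : ∀ s, f s ∈ φ.A0) (t : ℝ) : HH φ :=
  ⟨(f (projIcc 0 1 zero_le_one t) : V), (mem_HH φ).mpr (hf _)⟩

theorem continuous_fH (f : C(I, V0 V)) (hf : ∀ s, f s ∈ φ.A0) : Continuous (fH φ f hf) :=
  Continuous.subtype_mk (continuous_subtype_val.comp (f.continuous.comp continuous_projIcc)) _

theorem fH_ne (f : C(I, V0 V)) (hf : ∀ s, f s ∈ φ.A0) (t : ℝ) : fH φ f hf t ≠ 0 := by
  intro h
  exact (f (projIcc 0 1 zero_le_one t)).2 (congrArg Subtype.val h)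

theorem fH_val (f : C(I, V0 V)) (hf : ∀ s, f s ∈ φ.A0) (t : I) :
    ((fH φ f hf (t : ℝ) : HH φ) : V) = f t := by
  change ((f (projIcc 0 1 zero_le_one (t : ℝ)) : V0 V) : V) = f t
  rw [projIcc_val zero_le_one t]

theorem fH_congr {f g : C(I, V0 V)} {hf : ∀ s, f s ∈ φ.A0} {hg : ∀ s, g s ∈ φ.A0} {s t : I}
    (h : f s = g t) : fH φ f hf (s : ℝ) = fH φ g hg (t : ℝ) := by
  refine Subtype.ext ?_
  rw [fH_val, fH_val, h]

/-- Filling of squares in `H ∖ 0`. -/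
theorem fill_square (hV : 4 ≤ Module.finrank ℝ V) (bot top lft rgt : C(I, V0 V))
    (hb : ∀ s, bot s ∈ φ.A0) (ht : ∀ s, top s ∈ φ.A0) (hl : ∀ s, lft s ∈ φ.A0)
    (hr : ∀ s, rgt s ∈ φ.A0) (c00 : bot 0 = lft 0) (c10 : bot 1 = rgt 0) (c01 : top 0 = lft 1)
    (c11 : top 1 = rgt 1) :
    ∃ Δ : C(I × I, V0 V), (∀ p, Δ p ∈ φ.A0) ∧ (∀ s, Δ (s, 0) = bot s) ∧ (∀ s, Δ (s, 1) = top s) ∧
      (∀ t, Δ (0, t) = lft t) ∧ ∀ t, Δ (1, t) = rgt t := by
  classical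
  have d00 : fH φ bot hb 0 = fH φ lft hl 0 := fH_congr φ (s := 0) (t := 0) c00
  have d10 : fH φ bot hb 1 = fH φ rgt hr 0 := fH_congr φ (s := 1) (t := 0) c10
  have d01 : fH φ top ht 0 = fH φ lft hl 1 := fH_congr φ (s := 0) (t := 1) c01
  have d11 : fH φ top ht 1 = fH φ rgt hr 1 := fH_congr φ (s := 1) (t := 1) c11
  let g : ℝ × ℝ → HH φ := fun p => if p.2 = 0 then fH φ bot hb p.1 else
    if p.2 = 1 then fH φ top ht p.1 else if p.1 = 0 then fH φ lft hl p.2 else fH φ rgt hr p.2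
  have g1 : ∀ p : ℝ × ℝ, p.2 = 0 → g p = fH φ bot hb p.1 := fun p hp => if_pos hp
  have g2 : ∀ p : ℝ × ℝ, p.2 = 1 → g p = fH φ top ht p.1 := fun p hp => by
    simp only [g]
    rw [if_neg (by rw [hp]; exact one_ne_zero), if_pos hp]
  have g3 : ∀ p : ℝ × ℝ, p.1 = 0 → g p = fH φ lft hl p.2 := fun p hp => by
    by_cases h0 : p.2 = 0
    · rw [g1 p h0, hp, h0, d00]
    by_cases h1 : p.2 = 1
    · rw [g2 p h1, hp, h1, d01]
    simp only [g]
    rw [if_neg h0, if_neg h1, if_pos hp]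
  have g4 : ∀ p : ℝ × ℝ, p.1 = 1 → g p = fH φ rgt hr p.2 := fun p hp => by
    by_cases h0 : p.2 = 0
    · rw [g1 p h0, hp, h0, d10]
    by_cases h1 : p.2 = 1
    · rw [g2 p h1, hp, h1, d11]
    simp only [g]
    rw [if_neg h0, if_neg h1, if_neg (by rw [hp]; exact one_ne_zero)]
  let C : Set (ℝ × ℝ) := Icc 0 1 ×ˢ Icc 0 1
  let S1 : Set (ℝ × ℝ) := C ∩ {p | p.2 = 0}
  let S2 : Set (ℝ × ℝ) := C ∩ {p | p.2 = 1}
  let S3 : Set (ℝ × ℝ) := C ∩ {p | p.1 = 0}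
  let S4 : Set (ℝ × ℝ) := C ∩ {p | p.1 = 1}
  have hC : IsClosed C := isClosed_Icc.prod isClosed_Icc
  have hCc : IsCompact C := isCompact_Icc.prod isCompact_Icc
  have hS1 : IsClosed S1 := hC.inter (isClosed_eq continuous_snd continuous_const)
  have hS2 : IsClosed S2 := hC.inter (isClosed_eq continuous_snd continuous_const)
  have hS3 : IsClosed S3 := hC.inter (isClosed_eq continuous_fst continuous_const)
  have hS4 : IsClosed S4 := hC.inter (isClosed_eq continuous_fst continuous_const)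
  have k1 : ContinuousOn g S1 :=
    ((continuous_fH φ bot hb).comp continuous_fst).continuousOn.congr fun p hp => g1 p hp.2
  have k2 : ContinuousOn g S2 :=
    ((continuous_fH φ top ht).comp continuous_fst).continuousOn.congr fun p hp => g2 p hp.2
  have k3 : ContinuousOn g S3 :=
    ((continuous_fH φ lft hl).comp continuous_snd).continuousOn.congr fun p hp => g3 p hp.2
  have k4 : ContinuousOn g S4 :=
    ((continuous_fH φ rgt hr).comp continuous_snd).continuousOn.congr fun p hp => g4 p hp.2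
  have hSc : IsClosed (((S1 ∪ S2) ∪ S3) ∪ S4) := ((hS1.union hS2).union hS3).union hS4
  have hg : ContinuousOn g (((S1 ∪ S2) ∪ S3) ∪ S4) :=
    ((k1.union_of_isClosed k2 hS1 hS2).union_of_isClosed k3 (hS1.union hS2) hS3).union_of_isClosed
      k4 ((hS1.union hS2).union hS3) hS4
  have hsub : (((S1 ∪ S2) ∪ S3) ∪ S4) ⊆ C := by
    rintro p (((h | h) | h) | h) <;> exact h.1
  have hg0 : ∀ p ∈ (((S1 ∪ S2) ∪ S3) ∪ S4), g p ≠ 0 := by
    rintro p (((h | h) | h) | h)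
    · rw [g1 p h.2]; exact fH_ne φ _ _ _
    · rw [g2 p h.2]; exact fH_ne φ _ _ _
    · rw [g3 p h.2]; exact fH_ne φ _ _ _
    · rw [g4 p h.2]; exact fH_ne φ _ _ _
  have hdim : Module.finrank ℝ (ℝ × ℝ) < Module.finrank ℝ (HH φ) := by
    have h1 := finrank_HH φ
    rw [Module.finrank_prod, Module.finrank_self]
    omega
  obtain ⟨F, hF, hFS, hF0⟩ := Vale.Agent.P268.T.W196.extend_nonzero_on hdim hCc hSc hsub hg hg0
  have hmem : ∀ p : I × I, ((p.1 : ℝ), (p.2 : ℝ)) ∈ C := fun p => ⟨p.1.2, p.2.2⟩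
  have hne : ∀ p : I × I, ((F ((p.1 : ℝ), (p.2 : ℝ)) : HH φ) : V) ≠ 0 := fun p h =>
    hF0 _ (hmem p) (Subtype.ext h)
  have hcont : Continuous fun p : I × I => F ((p.1 : ℝ), (p.2 : ℝ)) :=
    hF.comp_continuous (by fun_prop) hmem
  refine ⟨⟨fun p => ⟨(F ((p.1 : ℝ), (p.2 : ℝ)) : HH φ), hne p⟩,
    Continuous.subtype_mk (continuous_subtype_val.comp hcont) _⟩, ?_, ?_, ?_, ?_, ?_⟩
  · intro p
    exact (mem_HH φ).mp (F ((p.1 : ℝ), (p.2 : ℝ))).2
  · intro s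
    refine Subtype.ext ?_
    change ((F ((s : ℝ), (0 : ℝ)) : HH φ) : V) = bot s
    have hm : ((s : ℝ), (0 : ℝ)) ∈ S1 := ⟨⟨s.2, left_mem_Icc.mpr zero_le_one⟩, rfl⟩
    rw [hFS _ (Or.inl (Or.inl (Or.inl hm))), g1 _ rfl]
    exact fH_val φ bot hb s
  · intro s
    refine Subtype.ext ?_
    change ((F ((s : ℝ), (1 : ℝ)) : HH φ) : V) = top s
    have hm : ((s : ℝ), (1 : ℝ)) ∈ S2 := ⟨⟨s.2, right_mem_Icc.mpr zero_le_one⟩, rfl⟩
    rw [hFS _ (Or.inl (Or.inl (Or.inr hm))), g2 _ rfl]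
    exact fH_val φ top ht s
  · intro s
    refine Subtype.ext ?_
    change ((F ((0 : ℝ), (s : ℝ)) : HH φ) : V) = lft s
    have hm : ((0 : ℝ), (s : ℝ)) ∈ S3 := ⟨⟨left_mem_Icc.mpr zero_le_one, s.2⟩, rfl⟩
    rw [hFS _ (Or.inl (Or.inr hm)), g3 _ rfl]
    exact fH_val φ lft hl s
  · intro s
    refine Subtype.ext ?_
    change ((F ((1 : ℝ), (s : ℝ)) : HH φ) : V) = rgt s
    have hm : ((1 : ℝ), (s : ℝ)) ∈ S4 := ⟨⟨right_mem_Icc.mpr zero_le_one, s.2⟩, rfl⟩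
    rw [hFS _ (Or.inr hm), g4 _ rfl]
    exact fH_val φ rgt hr s

/-- Paths in `H ∖ 0`. -/
theorem exists_path (hV : 3 ≤ Module.finrank ℝ V) {x y : V0 V} (hx : x ∈ φ.A0) (hy : y ∈ φ.A0) :
    ∃ δ : Path x y, ∀ t, δ t ∈ φ.A0 := by
  have h1 := finrank_HH φ
  have hr : 1 < Module.rank ℝ (HH φ) := by
    have := Module.lt_rank_of_lt_finrank (R := ℝ) (M := HH φ) (n := 1) (by omega)
    simpa using this
  have hpc := isPathConnected_compl_singleton_of_one_lt_rank hr (0 : HH φ)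
  let x' : HH φ := ⟨x, (mem_HH φ).mpr hx⟩
  let y' : HH φ := ⟨y, (mem_HH φ).mpr hy⟩
  have hx' : x' ∈ ({0}ᶜ : Set (HH φ)) := fun h => x.2 (congrArg Subtype.val h)
  have hy' : y' ∈ ({0}ᶜ : Set (HH φ)) := fun h => y.2 (congrArg Subtype.val h)
  have hj : JoinedIn ({0}ᶜ : Set (HH φ)) x' y' := hpc.joinedIn x' hx' y' hy'
  refine ⟨⟨⟨fun t => ⟨(hj.somePath t : HH φ), fun h => hj.somePath_mem t (Subtype.ext h)⟩, ?_⟩,
    ?_, ?_⟩, fun t => (mem_HH φ).mp (hj.somePath t).2⟩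
  · exact Continuous.subtype_mk (continuous_subtype_val.comp hj.somePath.continuous) _
  · refine Subtype.ext ?_
    change ((hj.somePath 0 : HH φ) : V) = x
    rw [hj.somePath.source]
  · refine Subtype.ext ?_
    change ((hj.somePath 1 : HH φ) : V) = y
    rw [hj.somePath.target]

section Classes

variable {M : Type*} [Fintype M] [DecidableEq M] [Nonempty M]

/-- **Free homotopy invariance.** -/
theorem hcl_toB_inv (hV : 4 ≤ Module.finrank ℝ V) {F₀ F₁ : C((M → I) × I, V0 V)}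
    {δ₀ : Path (F₀ topC) φ.e0} {δ₁ : Path (F₁ topC) φ.e0} (hF₀ : ∀ q ∈ bdC M, F₀ q ∈ φ.A0)
    (hF₁ : ∀ q ∈ bdC M, F₁ q ∈ φ.A0) (hδ₀ : ∀ t, δ₀ t ∈ φ.A0) (hδ₁ : ∀ t, δ₁ t ∈ φ.A0)
    (D : C(I × ((M → I) × I), V0 V)) (hD : ∀ s, ∀ q ∈ bdC M, D (s, q) ∈ φ.A0)
    (hD0 : ∀ q, D (0, q) = F₀ q) (hD1 : ∀ q, D (1, q) = F₁ q) :
    hcl (toB φ.e0_mem F₀ δ₀ hF₀ hδ₀) = hcl (toB φ.e0_mem F₁ δ₁ hF₁ hδ₁) := by
  rw [hcl_eq_iff]
  obtain ⟨Δ, h1, h2, h3, h4, h5⟩ := fill_square φ hV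
    (D.comp ⟨fun s : I => (s, topC), by fun_prop⟩) (ContinuousMap.const I φ.e0) δ₀.toContinuousMap
    δ₁.toContinuousMap (fun s => hD s _ topC_mem) (fun _ => φ.e0_mem) hδ₀ hδ₁
    ((hD0 topC).trans δ₀.source.symm) ((hD1 topC).trans δ₁.source.symm) δ₀.target.symm
    δ₁.target.symm
  exact toB_homotopic D hD hD0 hD1 Δ h1 h2 h3 h4 h5

/-- The class of a free spheroid of `(V ∖ 0, H ∖ 0)`. -/
noncomputable def gcl (hV : 4 ≤ Module.finrank ℝ V) (G : C((M → I) × I, V0 V))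
    (hG : ∀ q ∈ bdC M, G q ∈ φ.A0) : φ.PiG M :=
  hcl (toB φ.e0_mem G
    (exists_path φ (by omega : 3 ≤ Module.finrank ℝ V) (hG _ topC_mem) φ.e0_mem).choose hG
    (exists_path φ (by omega : 3 ≤ Module.finrank ℝ V) (hG _ topC_mem) φ.e0_mem).choose_spec)

theorem hcl_toB_eq_gcl (hV : 4 ≤ Module.finrank ℝ V) {F G : C((M → I) × I, V0 V)}
    {δ : Path (F topC) φ.e0} (hF : ∀ q ∈ bdC M, F q ∈ φ.A0) (hG : ∀ q ∈ bdC M, G q ∈ φ.A0)
    (hδ : ∀ t, δ t ∈ φ.A0) (D : C(I × ((M → I) × I), V0 V))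
    (hD : ∀ s, ∀ q ∈ bdC M, D (s, q) ∈ φ.A0) (hD0 : ∀ q, D (0, q) = F q)
    (hD1 : ∀ q, D (1, q) = G q) : hcl (toB φ.e0_mem F δ hF hδ) = gcl φ hV G hG :=
  hcl_toB_inv φ hV hF hG hδ _ D hD hD0 hD1

/-- The class is trivial if the spheroid can be deformed into `H ∖ 0`. -/
theorem hcl_toB_eq_one' (hV : 4 ≤ Module.finrank ℝ V) {F G : C((M → I) × I, V0 V)}
    {δ : Path (F topC) φ.e0} (hF : ∀ q ∈ bdC M, F q ∈ φ.A0) (hG : ∀ q, G q ∈ φ.A0)
    (hδ : ∀ t, δ t ∈ φ.A0) (D : C(I × ((M → I) × I), V0 V))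
    (hD : ∀ s, ∀ q ∈ bdC M, D (s, q) ∈ φ.A0) (hD0 : ∀ q, D (0, q) = F q)
    (hD1 : ∀ q, D (1, q) = G q) : hcl (toB φ.e0_mem F δ hF hδ) = 1 := by
  obtain ⟨δ', hδ'⟩ := exists_path φ (by omega : 3 ≤ Module.finrank ℝ V) (hG topC) φ.e0_mem
  rw [hcl_toB_inv φ hV hF (fun q _ => hG q) hδ hδ' D hD hD0 hD1]
  exact hcl_toB_eq_one hG hδ'

end Classes

end Vale.Agent.P268.H288
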