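import Mathlib

/-!
# Functoriality of Mathlib's homotopy groups

`hmap f h : HomotopyGroup N X x →* HomotopyGroup N Y y` for `f : C(X, Y)` with `f x = y`,
its composition rules, homotopy invariance, and products.
-/

namespace Vale.Agent.P268.H288

open scoped unitInterval Topology Topology.Homotopy
open ContinuousMap

variable {N : Type*} {X Y Z : Type*} [TopologicalSpace X] [TopologicalSpace Y] [TopologicalSpace Z]
  {x : X} {y : Y} {z : Z}

/-- The class of a generalized loop in the homotopy group. -/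
def hcl (p : Ω^ N X x) : HomotopyGroup N X x := Quotient.mk (GenLoop.Homotopic.setoid N x) p

theorem hcl_surj (a : HomotopyGroup N X x) : ∃ p : Ω^ N X x, hcl p = a :=
  Quotient.exists_rep a

theorem hcl_eq_iff {p q : Ω^ N X x} : hcl p = hcl q ↔ GenLoop.Homotopic p q :=
  Quotient.eq (r := GenLoop.Homotopic.setoid N x)

/-- Post-composition of a generalized loop. -/
def glMap (f : C(X, Y)) (h : f x = y) (p : Ω^ N X x) : Ω^ N Y y :=
  ⟨f.comp p.1, fun t ht => (congrArg f (p.2 t ht)).trans h⟩

@[simp]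
theorem glMap_apply (f : C(X, Y)) (h : f x = y) (p : Ω^ N X x) (t : N → I) :
    glMap f h p t = f (p t) := rfl

theorem glMap_homotopic (f : C(X, Y)) (h : f x = y) {p q : Ω^ N X x}
    (H : GenLoop.Homotopic p q) : GenLoop.Homotopic (glMap f h p) (glMap f h q) :=
  HomotopicRel.comp_continuousMap H f

/-- The map induced on homotopy groups (as a map of sets). -/
def hmapFun (f : C(X, Y)) (h : f x = y) : HomotopyGroup N X x → HomotopyGroup N Y y :=
  Quotient.map' (glMap f h) (fun _ _ H => glMap_homotopic f h H)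

theorem hmapFun_hcl (f : C(X, Y)) (h : f x = y) (p : Ω^ N X x) :
    hmapFun f h (hcl p) = hcl (glMap f h p) := rfl

section Group

variable [DecidableEq N]

theorem glMap_transAt (f : C(X, Y)) (h : f x = y) (i : N) (p q : Ω^ N X x) :
    glMap f h (GenLoop.transAt i p q) = GenLoop.transAt i (glMap f h p) (glMap f h q) := by
  ext t
  rw [glMap_apply]
  simp only [GenLoop.transAt, GenLoop.coe_copy]
  split_ifs <;> rfl

variable [Nonempty N]

theorem hcl_mul (i : N) (p q : Ω^ N X x) : hcl p * hcl q = hcl (GenLoop.transAt i q p) :=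
  HomotopyGroup.mul_spec

theorem hcl_inv (i : N) (p : Ω^ N X x) : (hcl p)⁻¹ = hcl (GenLoop.symmAt i p) :=
  HomotopyGroup.inv_spec

theorem hcl_one : hcl (GenLoop.const : Ω^ N X x) = 1 := rfl

/-- The homomorphism induced on homotopy groups. -/
noncomputable def hmap (f : C(X, Y)) (h : f x = y) :
    HomotopyGroup N X x →* HomotopyGroup N Y y :=
  MonoidHom.mk' (hmapFun f h) (by
    intro a b
    obtain ⟨p, rfl⟩ := hcl_surj a
    obtain ⟨q, rfl⟩ := hcl_surj b
    obtain ⟨i⟩ := (inferInstance : Nonempty N)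
    rw [hcl_mul i, hmapFun_hcl, hmapFun_hcl, hmapFun_hcl, hcl_mul i, glMap_transAt])

@[simp]
theorem hmap_hcl (f : C(X, Y)) (h : f x = y) (p : Ω^ N X x) :
    hmap f h (hcl p) = hcl (glMap f h p) := rfl

theorem hmap_id (a : HomotopyGroup N X x) : hmap (ContinuousMap.id X) rfl a = a := by
  obtain ⟨p, rfl⟩ := hcl_surj a
  rfl

theorem hmap_comp (g : C(Y, Z)) (hg : g y = z) (f : C(X, Y)) (hf : f x = y)
    (a : HomotopyGroup N X x) :
    hmap g hg (hmap f hf a) = hmap (g.comp f) ((congrArg g hf).trans hg) a := by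
  obtain ⟨p, rfl⟩ := hcl_surj a
  rfl

/-- Homotopic based maps induce the same homomorphism. -/
theorem hmap_eq_of_homotopic {f g : C(X, Y)} (hf : f x = y) (hg : g x = y)
    (H : HomotopicRel f g {x}) (a : HomotopyGroup N X x) : hmap f hf a = hmap g hg a := by
  obtain ⟨p, rfl⟩ := hcl_surj a
  rw [hmap_hcl, hmap_hcl, hcl_eq_iff]
  obtain ⟨F⟩ := H
  refine ⟨⟨⟨F.toContinuousMap.comp ((ContinuousMap.id I).prodMap p.1), ?_, ?_⟩, ?_⟩⟩
  · intro t
    change F (0, p t) = f (p t)
    exact F.apply_zero _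
  · intro t
    change F (1, p t) = g (p t)
    exact F.apply_one _
  · intro t s hs
    change F (t, p s) = f (p s)
    exact F.eq_fst t (p.2 s hs)

theorem hmap_one (f : C(X, Y)) (h : f x = y) (hf : HomotopicRel f (ContinuousMap.const X y) {x})
    (a : HomotopyGroup N X x) : hmap f h a = 1 := by
  rw [hmap_eq_of_homotopic h rfl hf a]
  obtain ⟨p, rfl⟩ := hcl_surj a
  rfl

end Group

/-! ### Products -/

section Pi

variable {ι : Type*} {W : ι → Type*} [∀ i, TopologicalSpace (W i)] {w : ∀ i, W i}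

/-- Assembling generalized loops of the factors. -/
def glPi (p : ∀ i, Ω^ N (W i) (w i)) : Ω^ N (∀ i, W i) w :=
  ⟨ContinuousMap.pi (fun i => (p i).1), fun t ht => by
    funext i
    exact (p i).2 t ht⟩

@[simp]
theorem glPi_apply (p : ∀ i, Ω^ N (W i) (w i)) (t : N → I) (i : ι) : glPi p t i = p i t := rfl

theorem glPi_homotopic {p q : ∀ i, Ω^ N (W i) (w i)} (H : ∀ i, GenLoop.Homotopic (p i) (q i)) :
    GenLoop.Homotopic (glPi p) (glPi q) := by
  classical
  have F : ∀ i, HomotopyRel (p i).1 (q i).1 (Cube.boundary N) := fun i => (H i).some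
  refine ⟨⟨⟨ContinuousMap.pi (fun i => (F i).toContinuousMap), ?_, ?_⟩, ?_⟩⟩
  · intro t
    funext i
    exact (F i).apply_zero t
  · intro t
    funext i
    exact (F i).apply_one t
  · intro s t ht
    funext i
    exact (F i).eq_fst s ht

/-- The projection to a factor. -/
def prj (W : ι → Type*) [∀ i, TopologicalSpace (W i)] (i : ι) : C((∀ i, W i), W i) :=
  ⟨fun f => f i, continuous_apply i⟩

/-- Two loops in a product are homotopic iff their components are. -/
theorem homotopic_pi_iff {p q : Ω^ N (∀ i, W i) w} :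
    GenLoop.Homotopic p q ↔
      ∀ i, GenLoop.Homotopic (glMap (prj W i) rfl p) (glMap (prj W i) rfl q) := by
  constructor
  · intro H i
    exact glMap_homotopic _ rfl H
  · intro H
    exact glPi_homotopic H

variable [DecidableEq N] [Nonempty N]

/-- The homotopy group of a product embeds into the product of the homotopy groups. -/
theorem hmap_pi_injective {a b : HomotopyGroup N (∀ i, W i) w}
    (h : ∀ i, hmap (prj W i) rfl a = hmap (prj W i) rfl b) : a = b := by
  obtain ⟨p, rfl⟩ := hcl_surj a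
  obtain ⟨q, rfl⟩ := hcl_surj b
  rw [hcl_eq_iff, homotopic_pi_iff]
  intro i
  have := h i
  rwa [hmap_hcl, hmap_hcl, hcl_eq_iff] at this

theorem hmap_pi_surjective (a : ∀ i, HomotopyGroup N (W i) (w i)) :
    ∃ b : HomotopyGroup N (∀ i, W i) w, ∀ i, hmap (prj W i) rfl b = a i := by
  choose p hp using fun i => hcl_surj (a i)
  exact ⟨hcl (glPi p), fun i => by rw [hmap_hcl, ← hp i]; rfl⟩

end Pi

end Vale.Agent.P268.H288
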