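import Vale.Agent.P268.T.SkelNF
import Vale.Agent.P268.T.H73.KInst
import Vale.Agent.P268.H288.DataBraid

/-!
# The type of the data of the K-form

`kType`: the statement `KType` for the classes `gk` of the reference field.
-/

set_option linter.unusedSectionVars false

namespace Vale.Agent.P268.H288

open scoped unitInterval Topology Topology.Homotopy RealInnerProductSpace
open Set Metric Filter Vale.Agent.P268.T.A109 Vale.Agent.P268.T Vale.Agent.P268.T.B4
  Vale.Agent.P268.T.K372
open Vale.Agent.P268.T.H73 (Chart bF nF refF refC SmallP kform_hpair exists_tw zetaK_diag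
  zetaK_low refC_mem)

theorem Lk_eDiag' (k : ℕ) : Lk k (eDiag (Fin (k + 4))) = (frk k).h :=
  Submodule.reflection_sub (by rw [norm_eDiag, (frk k).hh])

theorem four_le_finrank' (k : ℕ) : 4 ≤ Module.finrank ℝ (Vk k) := by
  rw [finrank_euclideanSpace_fin]
  omega

section Transport

variable {T P V W A B : Type*} [TopologicalSpace T] [NormedAddCommGroup P] [NormedSpace ℝ P]
  [NormedAddCommGroup V] [InnerProductSpace ℝ V] [NormedAddCommGroup W] [InnerProductSpace ℝ W]
  {s : Set T} {e : V} {b ν : T → A → P → V}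

/-- Data under an isometry and a change of index. -/
theorem bFam_transport (h : BFam s e b ν) (L : V →ₗᵢ[ℝ] W) {f : B → A}
    (hf : Function.Injective f) :
    BFam s (L e) (fun t i x => L (b t (f i) x)) (fun t i x => L (ν t (f i) x)) where
  cb i := L.continuous.comp_continuousOn (h.cb (f i))
  cn i := L.continuous.comp_continuousOn (h.cn (f i))
  nn t ht i x hx := by rw [L.norm_map]; exact h.nn t ht (f i) x hx
  inj t ht x hx i j hij := hf (h.inj t ht x hx (L.injective hij))
  bh t ht i x hx := by rw [L.inner_map_map]; exact h.bh t ht (f i) x hx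
  nh t ht i x hx := by rw [h.nh t ht (f i) x hx]

end Transport

/-- The fixed chart. -/
theorem chart_dd (k : ℕ) {d' : ℝ} (h0 : 0 ≤ d') (h1 : d' ≤ dl k)
    (h2 : d' * (Real.sqrt (((k + 3 : ℕ) : ℝ) + 1) * (1 + 1 / dd k)) < 1) :
    Chart (k + 3) (dl k) (dd k) d' where
  hd := by unfold dd; positivity
  hdδ := by
    unfold dd dl
    have : (0 : ℝ) < k + 4 := by positivity
    rw [← sub_nonneg]
    have e : 1 / (4 * ((k : ℝ) + 4)) - 2 * (1 / (8 * ((k : ℝ) + 4))) = 0 := by
      field_simp
      norm_num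
    rw [e]
  hδ := by
    unfold dl
    have h : (0 : ℝ) < (k : ℝ) + 4 := by positivity
    have h4 : (4 : ℝ) ≤ (k : ℝ) + 4 := by
      have := Nat.cast_nonneg (α := ℝ) k
      linarith
    push_cast
    rw [div_pow, one_pow, mul_one_div, div_lt_one (by positivity)]
    nlinarith
  hd' := h0
  hd'δ := h1
  hc := h2

theorem chart_dd0 (k : ℕ) : Chart (k + 3) (dl k) (dd k) 0 :=
  chart_dd k le_rfl (by unfold dl; positivity) (by rw [zero_mul]; exact one_pos)

/-- The inverse chart, as a continuous map. -/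
noncomputable def unC (m : ℕ) : C((Fin m → I) × I, Fin (m + 1) → ℝ) := ⟨unM, continuous_unM⟩

/-- The reference field of the K-form. -/
noncomputable def refk (k : ℕ) : C((Fin (k + 2) → I) × I, V0 (Vk k)) :=
  refC (n := k + 3) (δ := dl k) (d := dd k) (Lk k).toLinearIsometry (unC (k + 2)) (chart_dd0 k)
    norm_unM_le

theorem refk_mem (k : ℕ) : ∀ q ∈ bdC (Fin (k + 2)), refk k q ∈ (frk k).A0 := fun _ hq =>
  refC_mem (n := k + 3) (frk k) (Lk k).toLinearIsometry (unC (k + 2)) (Lk_eDiag' k) (chart_dd0 k)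
    norm_unM_le (norm_unM_eq hq)

/-- The class of the reference field. -/
noncomputable def gk (k : ℕ) : (frk k).PiG (Fin (k + 2)) :=
  gcl (frk k) (four_le_finrank' k) (refk k) (refk_mem k)

/-- The data of the K-form. -/
theorem bData_kform (k : ℕ) {S : Type} {K : S → Fin (k + 4) → ℕ} {d' θ : ℝ}
    {G : (Fin (k + 4) → ℕ) → ℝ} (hG : GoodG K G) (C : Chart (k + 3) (dl k) (dd k) d')
    (hθ : 0 < θ)
    (hs : ∀ a b, 4 * Fintype.card (Fin (k + 4)) * θ * |G (K a) - G (K b)| ≤ 1) :
    BData (eDiag (Fin (k + 4))) (kbk k d' θ G K) (@knk k S) := by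
  refine bData_usec (n := k + 3) C.hd C.hdδ C.hd' C.hc C.nField
    (c := fun a => cV (dl k) d' θ G (K a)) (fun a => continuous_cV C.δ_nonneg C.hd' θ G (K a))
    (fun a r hr u => cV_smul _ _ _ G (K a) hr u) (fun a u hu => ?_)
    (fun a b hab u hu h => ?_)
  · rw [real_inner_comm]
    exact inner_cV_nuV_eq_zero C.δ_nonneg d' θ G (K a) fun j => (le_mx _ j).trans hu
  · intro heq
    obtain ⟨j, hj⟩ := exists_mx u.ofLp
    exact hab (cV_injective' C.δ_nonneg C.card_lt C.hd' hθ hG.1 hG.2.1 hs
      ⟨j, by rw [hj] at h; exact h⟩ heq)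

/-- **The type of the data of the K-form.** -/
theorem kType : KType gk := by
  intro k r S _ _ K hK e he G hG
  -- the chart
  have hc1 : ∀ᶠ d' in 𝓝[>] (0 : ℝ), Chart (k + 3) (dl k) (dd k) d' := by
    have hdl : 0 < dl k := by unfold dl; positivity
    have h1 : ∀ᶠ d' in 𝓝[>] (0 : ℝ), d' ≤ dl k :=
      (eventually_le_nhds hdl).filter_mono nhdsWithin_le_nhds
    have h2 : ∀ᶠ d' in 𝓝[>] (0 : ℝ),
        d' * (Real.sqrt (((k + 3 : ℕ) : ℝ) + 1) * (1 + 1 / dd k)) < 1 := by
      have hcont : Continuous fun d' : ℝ =>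
        d' * (Real.sqrt (((k + 3 : ℕ) : ℝ) + 1) * (1 + 1 / dd k)) := by fun_prop
      have := hcont.tendsto 0
      rw [zero_mul] at this
      exact (this.eventually_lt_const one_pos).filter_mono nhdsWithin_le_nhds
    filter_upwards [h1, h2, self_mem_nhdsWithin] with d' h1 h2 h3
    exact chart_dd k (le_of_lt h3) h1 h2
  -- the smallness of `θ`
  have hc2 : ∀ᶠ θ in 𝓝[>] (0 : ℝ), 0 < θ ∧
      (∀ a b, 4 * Fintype.card (Fin (k + 4)) * θ * |G (K a) - G (K b)| ≤ 1) ∧
      ∀ a b, SmallP (k + 3) θ G (K a) (K b) := by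
    have key : ∀ c : ℝ, ∀ᶠ θ in 𝓝[>] (0 : ℝ), ∀ a b, c * θ * |G (K a) - G (K b)| ≤ 1 := by
      intro c
      rw [eventually_all]
      intro a
      rw [eventually_all]
      intro b
      have hcont : Continuous fun θ : ℝ => c * θ * |G (K a) - G (K b)| := by fun_prop
      have := hcont.tendsto 0
      rw [mul_zero, zero_mul] at this
      exact (this.eventually_le_const one_pos).filter_mono nhdsWithin_le_nhds
    filter_upwards [key (4 * Fintype.card (Fin (k + 4))),
      key (4 * ((((k + 3 : ℕ) : ℝ) + 1)) ^ 2), self_mem_nhdsWithin] with θ h1 h2 h3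
    refine ⟨h3, h1, fun a b => ?_⟩
    have := h2 b a
    exact this
  filter_upwards [hc1] with d' C
  filter_upwards [hc2] with θ ⟨hθ, hs1, hs2⟩
  have hbd := bData_kform k hG C hθ hs1
  have hb : BData (frk k).h (fun i x => Lk k (kbk k d' θ G K (e.symm i) x))
      (fun i x => Lk k (knk k i x)) := by
    have h := bFam_transport hbd (Lk k).toLinearIsometry e.symm.injective
    have h' : (Lk k).toLinearIsometry (eDiag (Fin (k + 4))) = (frk k).h := Lk_eDiag' k
    rw [h'] at h
    exact h
  have : Nonempty (Fin (k + 2)) := ⟨0⟩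
  exact exists_braid_of_data (frk k) (four_le_finrank' k) hb (refk k) (refk_mem k) (zetaK K e)
    (fun i => zetaK_diag i) (fun i j hij => zetaK_low he hij)
    (fun i j hij => kform_hpair (n := k + 3) (frk k) (Lk k).toLinearIsometry (unC (k + 2))
      (Lk_eDiag' k) C (chart_dd0 k) norm_unM_le (fun _ hq => norm_unM_eq hq) hθ hK he hG.1
      hG.2.1 hs2 i j hij)
    (fun i => exists_tw (n := k + 3) (frk k) (Lk k).toLinearIsometry (unC (k + 2)) (Lk_eDiag' k)
      (chart_dd0 k) norm_unM_le fun _ hq => norm_unM_eq hq)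

end Vale.Agent.P268.H288
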