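import Mathlib

/-!
# The piecewise linear homeomorphism `u ↦ (u - mean u, -max u)`

It carries the negative orthant `{max u ≤ 0}` to the half space `{0 ≤ h}`.
-/

namespace Vale.Agent.P268.H288

open Finset

set_option linter.unusedSectionVars false

variable (ι : Type) [Fintype ι] [Nonempty ι]

/-- The hyperplane `∑ w = 0`. -/
def Hyp : Submodule ℝ (ι → ℝ) := LinearMap.ker (∑ i, LinearMap.proj i : (ι → ℝ) →ₗ[ℝ] ℝ)

variable {ι}

theorem mem_Hyp {w : ι → ℝ} : w ∈ Hyp ι ↔ ∑ i, w i = 0 := by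
  rw [Hyp, LinearMap.mem_ker, LinearMap.sum_apply]
  rfl

/-- The largest coordinate. -/
noncomputable def mx (u : ι → ℝ) : ℝ := univ.sup' univ_nonempty u

/-- The mean of the coordinates. -/
noncomputable def mn (u : ι → ℝ) : ℝ := (∑ i, u i) / Fintype.card ι

theorem le_mx (u : ι → ℝ) (i : ι) : u i ≤ mx u := le_sup' u (mem_univ i)

theorem mx_le {u : ι → ℝ} {c : ℝ} : mx u ≤ c ↔ ∀ i, u i ≤ c := by
  rw [mx, sup'_le_iff]; simp

theorem exists_mx (u : ι → ℝ) : ∃ i, mx u = u i := by
  obtain ⟨i, -, h⟩ := exists_mem_eq_sup' univ_nonempty u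
  exact ⟨i, h⟩

theorem mx_add_const (u : ι → ℝ) (c : ℝ) : mx (fun i => u i + c) = mx u + c := by
  refine le_antisymm (mx_le.mpr fun i => by linarith [le_mx u i]) ?_
  obtain ⟨i, hi⟩ := exists_mx u
  rw [hi]
  exact le_mx (fun i => u i + c) i

theorem continuous_mx : Continuous (mx : (ι → ℝ) → ℝ) :=
  Continuous.finset_sup'_apply univ_nonempty fun i _ => continuous_apply i

theorem mx_smul {r : ℝ} (hr : 0 ≤ r) (u : ι → ℝ) : mx (r • u) = r * mx u := by
  refine le_antisymm (mx_le.mpr fun i => mul_le_mul_of_nonneg_left (le_mx u i) hr) ?_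
  obtain ⟨i, hi⟩ := exists_mx u
  rw [hi]
  exact le_mx (r • u) i

theorem mx_sub_le (u v : ι → ℝ) : mx u - mx v ≤ ‖u - v‖ := by
  obtain ⟨i, hi⟩ := exists_mx u
  have h1 := le_mx v i
  have h2 := norm_le_pi_norm (u - v) i
  have h3 := le_abs_self ((u - v) i)
  rw [Real.norm_eq_abs] at h2
  rw [Pi.sub_apply] at h3 h2
  linarith

theorem abs_mx_sub_le (u v : ι → ℝ) : |mx u - mx v| ≤ ‖u - v‖ := by
  refine abs_le.mpr ⟨?_, mx_sub_le u v⟩
  have := mx_sub_le v u
  rw [norm_sub_rev] at this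
  linarith

theorem continuous_mn : Continuous (mn : (ι → ℝ) → ℝ) := by
  unfold mn; fun_prop

theorem mn_smul (r : ℝ) (u : ι → ℝ) : mn (r • u) = r * mn u := by
  simp only [mn, Pi.smul_apply, smul_eq_mul, ← mul_sum, mul_div_assoc]

theorem card_ne : (Fintype.card ι : ℝ) ≠ 0 := Nat.cast_ne_zero.mpr Fintype.card_ne_zero

theorem sum_sub_mn (u : ι → ℝ) : ∑ i, (u i - mn u) = 0 := by
  rw [sum_sub_distrib, sum_const, card_univ, nsmul_eq_mul, mn, mul_div_cancel₀ _ card_ne, sub_self]

/-- The piecewise linear homeomorphism `u ↦ (u - mean u, -max u)`. -/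
noncomputable def plHomeo : (ι → ℝ) ≃ₜ Hyp ι × ℝ where
  toFun u := (⟨fun i => u i - mn u, mem_Hyp.mpr (sum_sub_mn u)⟩, -mx u)
  invFun p := fun i => p.1.1 i + (-p.2 - mx p.1.1)
  left_inv u := by
    funext i
    have h : mx (fun i => u i - mn u) = mx u - mn u := by
      simpa [sub_eq_add_neg] using mx_add_const u (-mn u)
    change u i - mn u + (- -mx u - mx (fun i => u i - mn u)) = u i
    rw [h]; ring
  right_inv p := by
    obtain ⟨⟨w, hw⟩, h⟩ := p
    have hw' : ∑ i, w i = 0 := mem_Hyp.mp hw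
    have e1 : mn (fun i => w i + (-h - mx w)) = -h - mx w := by
      rw [mn, sum_add_distrib, hw', sum_const, card_univ, nsmul_eq_mul, zero_add,
        mul_div_cancel_left₀ _ card_ne]
    have e2 : mx (fun i => w i + (-h - mx w)) = -h := by
      rw [mx_add_const]; ring
    refine Prod.ext (Subtype.ext (funext fun i => ?_)) ?_
    · change w i + (-h - mx w) - mn (fun i => w i + (-h - mx w)) = w i
      rw [e1]; ring
    · change -mx (fun i => w i + (-h - mx w)) = h
      rw [e2, neg_neg]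
  continuous_toFun := by
    refine Continuous.prodMk (Continuous.subtype_mk ?_ _) continuous_mx.neg
    exact continuous_pi fun i => (continuous_apply i).sub continuous_mn
  continuous_invFun := by
    refine continuous_pi fun i => ?_
    have h1 : Continuous fun p : Hyp ι × ℝ => p.1.1 := continuous_subtype_val.comp continuous_fst
    exact ((continuous_apply i).comp h1).add (continuous_snd.neg.sub (continuous_mx.comp h1))

@[simp]
theorem plHomeo_fst (u : ι → ℝ) (i : ι) : (plHomeo u).1.1 i = u i - mn u := rfl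

@[simp]
theorem plHomeo_snd (u : ι → ℝ) : (plHomeo u).2 = -mx u := rfl

@[simp]
theorem plHomeo_symm_apply (p : Hyp ι × ℝ) (i : ι) :
    plHomeo.symm p i = p.1.1 i + (-p.2 - mx p.1.1) := rfl

theorem plHomeo_smul {r : ℝ} (hr : 0 ≤ r) (u : ι → ℝ) : plHomeo (r • u) = r • plHomeo u := by
  refine Prod.ext (Subtype.ext (funext fun i => ?_)) ?_
  · change (r • u) i - mn (r • u) = r * (u i - mn u)
    rw [mn_smul, Pi.smul_apply, smul_eq_mul]; ring
  · change -mx (r • u) = r * -mx u
    rw [mx_smul hr]; ring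

theorem plHomeo_zero : plHomeo (0 : ι → ℝ) = 0 := by
  have := plHomeo_smul le_rfl (0 : ι → ℝ)
  rwa [zero_smul, zero_smul] at this

theorem plHomeo_symm_smul {r : ℝ} (hr : 0 ≤ r) (p : Hyp ι × ℝ) :
    plHomeo.symm (r • p) = r • plHomeo.symm p := by
  apply plHomeo.injective
  rw [plHomeo_smul hr, Homeomorph.apply_symm_apply, Homeomorph.apply_symm_apply]

/-- The negative orthant corresponds to the half space `0 ≤ h`. -/
theorem plHomeo_snd_nonneg {u : ι → ℝ} : 0 ≤ (plHomeo u).2 ↔ ∀ i, u i ≤ 0 := by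
  rw [plHomeo_snd, Left.nonneg_neg_iff, mx_le]

end Vale.Agent.P268.H288
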