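import Vale.Agent.P268.H288.HGMap

/-!
# The path space of a pair

`PP X A a` = paths in `X` which start in `A` and end at `a`. Its homotopy groups are the relative
homotopy groups of `(X, A, a)`.
-/

namespace Vale.Agent.P268.H288

open scoped unitInterval Topology Topology.Homotopy
open ContinuousMap

/-- Paths which start in `A` and end at `a`. -/
def PP (X : Type*) [TopologicalSpace X] (A : Set X) (a : X) : Type _ :=
  {γ : C(I, X) // γ 0 ∈ A ∧ γ 1 = a}

namespace PP

variable {M : Type*} {X Y Z : Type*} [TopologicalSpace X] [TopologicalSpace Y] [TopologicalSpace Z]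
  {A : Set X} {B : Set Y} {D : Set Z} {a : X} {b : Y} {d : Z}

instance : TopologicalSpace (PP X A a) := instTopologicalSpaceSubtype

/-- The constant path. -/
def const (ha : a ∈ A) : PP X A a := ⟨ContinuousMap.const I a, ha, rfl⟩

@[simp]
theorem const_val (ha : a ∈ A) (t : I) : (const ha : PP X A a).1 t = a := rfl

theorem ext {γ δ : PP X A a} (h : ∀ t, γ.1 t = δ.1 t) : γ = δ :=
  Subtype.ext (ContinuousMap.ext h)

/-- A map of pairs induces a map of path spaces. -/
def map (f : C(X, Y)) (hf : ∀ x ∈ A, f x ∈ B) (h : f a = b) : C(PP X A a, PP Y B b) where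
  toFun γ := ⟨f.comp γ.1, hf _ γ.2.1, (congrArg f γ.2.2).trans h⟩
  continuous_toFun :=
    Continuous.subtype_mk ((ContinuousMap.continuous_postcomp f).comp continuous_subtype_val) _

@[simp]
theorem map_val (f : C(X, Y)) (hf : ∀ x ∈ A, f x ∈ B) (h : f a = b) (γ : PP X A a) (t : I) :
    (map f hf h γ).1 t = f (γ.1 t) := rfl

theorem map_const (f : C(X, Y)) (hf : ∀ x ∈ A, f x ∈ B) (h : f a = b) (ha : a ∈ A) (hb : b ∈ B) :
    map f hf h (const ha) = const hb := ext fun _ => h

/-- Continuity into a path space. -/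
theorem continuous_iff {W : Type*} [TopologicalSpace W] {g : W → PP X A a} :
    Continuous g ↔ Continuous fun p : W × I => (g p.1).1 p.2 := by
  constructor
  · intro h
    have h1 : Continuous fun w => (g w).1 := continuous_subtype_val.comp h
    exact continuous_eval.comp (h1.prodMap continuous_id)
  · intro h
    refine Continuous.subtype_mk (f := fun w => (g w).1) ?_ _
    exact ContinuousMap.continuous_of_continuous_uncurry _ h

/-- The relative spheroid condition for a map `F : (M → I) × I → X`. -/
structure Rel (A : Set X) (a : X) (F : (M → I) × I → X) : Prop where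
  rim : ∀ y, F (y, 0) ∈ A
  top : ∀ y, F (y, 1) = a
  side : ∀ y ∈ Cube.boundary M, ∀ t, F (y, t) = a

/-- The generalized loop of a relative spheroid. -/
def toGL (ha : a ∈ A) (F : C((M → I) × I, X)) (hF : Rel A a F) : Ω^ M (PP X A a) (const ha) :=
  ⟨⟨fun y => ⟨F.curry y, hF.rim y, hF.top y⟩,
    Continuous.subtype_mk F.curry.continuous _⟩, fun y hy => ext fun t => hF.side y hy t⟩

@[simp]
theorem toGL_apply (ha : a ∈ A) (F : C((M → I) × I, X)) (hF : Rel A a F) (y : M → I) (t : I) :
    (toGL ha F hF y).1 t = F (y, t) := rfl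

/-- The relative spheroid of a generalized loop. -/
def ofGL {ha : a ∈ A} (p : Ω^ M (PP X A a) (const ha)) : C((M → I) × I, X) :=
  ⟨fun q => (p q.1).1 q.2, continuous_iff.mp p.1.continuous⟩

@[simp]
theorem ofGL_apply {ha : a ∈ A} (p : Ω^ M (PP X A a) (const ha)) (q : (M → I) × I) :
    ofGL p q = (p q.1).1 q.2 := rfl

theorem rel_ofGL {ha : a ∈ A} (p : Ω^ M (PP X A a) (const ha)) : Rel A a (ofGL p) where
  rim y := (p y).2.1
  top y := (p y).2.2
  side y hy t := by
    have h : p y = const ha := p.2 y hy
    change (p y).1 t = a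
    rw [h]; rfl

theorem toGL_ofGL {ha : a ∈ A} (p : Ω^ M (PP X A a) (const ha)) : toGL ha (ofGL p) (rel_ofGL p) = p :=
  GenLoop.ext _ _ fun _ => ext fun _ => rfl

/-- Homotopy of generalized loops in the path space = homotopy of relative spheroids. -/
theorem homotopic_iff {ha : a ∈ A} {p q : Ω^ M (PP X A a) (const ha)} :
    GenLoop.Homotopic p q ↔ ∃ H : C(I × ((M → I) × I), X),
      (∀ y, H (0, y) = ofGL p y) ∧ (∀ y, H (1, y) = ofGL q y) ∧ ∀ s, Rel A a fun y => H (s, y) := by
  constructor
  · rintro ⟨F⟩
    have hc : Continuous fun z : (I × (M → I)) × I => (F z.1).1 z.2 :=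
      continuous_iff.mp F.continuous
    refine ⟨⟨fun z => (F (z.1, z.2.1)).1 z.2.2, ?_⟩, ?_, ?_, ?_⟩
    · exact hc.comp ((continuous_fst.prodMk (continuous_fst.comp continuous_snd)).prodMk
        (continuous_snd.comp continuous_snd))
    · intro y
      change (F (0, y.1)).1 y.2 = (p y.1).1 y.2
      rw [F.apply_zero]; rfl
    · intro y
      change (F (1, y.1)).1 y.2 = (q y.1).1 y.2
      rw [F.apply_one]; rfl
    · intro s
      refine ⟨fun y => (F (s, y)).2.1, fun y => (F (s, y)).2.2, fun y hy t => ?_⟩
      change (F (s, y)).1 t = a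
      rw [F.eq_fst s hy]
      change (p y).1 t = a
      rw [show p y = const ha from p.2 y hy]; rfl
  · rintro ⟨H, h0, h1, hR⟩
    refine ⟨⟨⟨⟨fun z => ⟨⟨fun t => H (z.1, (z.2, t)), by fun_prop⟩, (hR z.1).rim z.2,
      (hR z.1).top z.2⟩, ?_⟩, ?_, ?_⟩, ?_⟩⟩
    · refine continuous_iff.mpr ?_
      exact H.continuous.comp ((continuous_fst.comp continuous_fst).prodMk
        ((continuous_snd.comp continuous_fst).prodMk continuous_snd))
    · intro y
      exact ext fun t => h0 (y, t)
    · intro y
      exact ext fun t => h1 (y, t)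
    · intro s y hy
      refine ext fun t => ?_
      change H (s, (y, t)) = (p y).1 t
      rw [show p y = const ha from p.2 y hy]
      exact (hR s).side y hy t

end PP

end Vale.Agent.P268.H288
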