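import Vale.Agent.P268.H288.FreeInv
import Vale.Agent.P268.T.W196.HT

/-!
# The type of a free braid

A free braid is a map `c` of the cube `(M → I) × I` to the framed configurations `BX V r` with
`c (∂) ⊆ BA r`. It is freely homotopic to a based braid `toB c δ`, whose classes are computed from
free homotopies of the differences and of the normals.
-/

set_option linter.unusedSectionVars false

namespace Vale.Agent.P268.H288

open scoped unitInterval Topology Topology.Homotopy RealInnerProductSpace
open Set Vale.Agent.P268.T.A109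

variable {V : Type*} [NormedAddCommGroup V] [InnerProductSpace ℝ V] [FiniteDimensional ℝ V]
  (φ : Fr V)

theorem one_lt_rank_HH (hV : 3 ≤ Module.finrank ℝ V) : 1 < Module.rank ℝ (HH φ) := by
  have h1 := finrank_HH φ
  have := Module.lt_rank_of_lt_finrank (R := ℝ) (M := HH φ) (n := 1) (by omega)
  simpa using this

/-- The framed configurations of the page of the slab are path connected. -/
theorem exists_conf_path (hV : 4 ≤ Module.finrank ℝ V) {r : ℕ} {z w : BX V r} (hz : z ∈ φ.BA r)
    (hw : w ∈ φ.BA r) : ∃ δ : Path z w, ∀ t, δ t ∈ φ.BA r := by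
  classical
  have h1 := finrank_HH φ
  obtain ⟨m, hm⟩ : ∃ m, Module.finrank ℝ (HH φ) = m + 1 := ⟨Module.finrank ℝ V - 2, by omega⟩
  have hpc := isPathConnected_compl_singleton_of_one_lt_rank (one_lt_rank_HH φ (by omega))
    (0 : HH φ)
  let c : Fin r → HH φ := fun i => ⟨z.1.1 i, (mem_HH φ).mpr (hz.1 i)⟩
  let c' : Fin r → HH φ := fun i => ⟨w.1.1 i, (mem_HH φ).mpr (hw.1 i)⟩
  have hc : ∀ i j, i ≠ j → c j - c i ∈ ({0}ᶜ : Set (HH φ)) := fun i j hij h =>
    hij.symm (z.1.2 (congrArg Subtype.val (sub_eq_zero.mp h)))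
  have hc' : ∀ i j, i ≠ j → c' j - c' i ∈ ({0}ᶜ : Set (HH φ)) := fun i j hij h =>
    hij.symm (w.1.2 (congrArg Subtype.val (sub_eq_zero.mp h)))
  have hj : ∀ i j, i ≠ j → JoinedIn ({0}ᶜ : Set (HH φ)) (c j - c i) (c' j - c' i) :=
    fun i j hij => hpc.joinedIn _ (hc i j hij) _ (hc' i j hij)
  let G : Fin r → Fin r → ℝ → HH φ := fun i j t =>
    if h : i ≠ j then (hj i j h).somePath.extend t else 0
  have eH : ∀ i j (h : i ≠ j), G i j = (hj i j h).somePath.extend := fun i j h =>
    funext fun t => dif_pos h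
  obtain ⟨F, hFc, hF0, hF1, -, hFi⟩ := Vale.Agent.P268.T.W196.homotopy_conf (m := m) (by omega) hm
    (W := Fin 0 → ℝ) (by rw [Module.finrank_fin_fun]; omega) (C := {0}) isCompact_singleton
    (convex_singleton 0) (singleton_nonempty 0) (A := ∅) isClosed_empty (empty_subset _)
    (fun i _ => c i) (fun i _ => c' i)
    (fun i => continuousOn_const) (fun i => continuousOn_const)
    (fun z hz => absurd hz (notMem_empty z)) (fun i j t _ => G i j t)
    (fun i j hij => by
      rw [eH i j hij]
      exact ((hj i j hij).somePath.continuous_extend.comp continuous_fst).continuousOn)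
    (fun i j hij t ht x _ => by
      rw [eH i j hij]
      have h2 : (hj i j hij).somePath.extend t ∈ ({0}ᶜ : Set (HH φ)) := by
        rw [Path.extend_apply _ ht]
        exact (hj i j hij).somePath_mem _
      exact h2)
    (fun i j hij x _ => by rw [eH i j hij, Path.extend_zero])
    (fun i j hij x _ => by rw [eH i j hij, Path.extend_one])
    (fun i j hij t ht x hx => absurd hx (notMem_empty x))
  have hinj : ∀ t : I, Function.Injective fun i => ((F i (t : ℝ) 0 : HH φ) : V) := fun t =>
    Subtype.val_injective.comp (hFi t t.2 0 rfl)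
  have hcont : ∀ i, Continuous fun t : I => F i (t : ℝ) 0 := fun i =>
    (hFc i).comp_continuous (f := fun t : I => ((t : ℝ), (0 : Fin 0 → ℝ))) (by fun_prop)
      fun t => ⟨t.2, rfl⟩
  refine ⟨⟨⟨fun t => (⟨fun i => ((F i (t : ℝ) 0 : HH φ) : V), hinj t⟩, fun _ => φ.h1), ?_⟩, ?_, ?_⟩,
    fun t => ⟨fun i => (mem_HH φ).mp (F i (t : ℝ) 0).2, fun _ => rfl⟩⟩
  · refine Continuous.prodMk (Continuous.subtype_mk (continuous_pi fun i => ?_) _)
      continuous_const
    exact continuous_subtype_val.comp (hcont i)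
  · refine Prod.ext (Subtype.ext (funext fun i => ?_)) (funext fun i => ?_)
    · change ((F i ((0 : I) : ℝ) 0 : HH φ) : V) = z.1.1 i
      rw [show ((0 : I) : ℝ) = 0 from rfl, hF0 i 0 rfl]
    · exact (hz.2 i).symm
  · refine Prod.ext (Subtype.ext (funext fun i => ?_)) (funext fun i => ?_)
    · change ((F i ((1 : I) : ℝ) 0 : HH φ) : V) = w.1.1 i
      rw [show ((1 : I) : ℝ) = 1 from rfl, hF1 i 0 rfl]
    · exact (hw.2 i).symm

end Vale.Agent.P268.H288
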