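import Vale.Agent.P268.H288.TypeThm

/-!
# The type of a free braid, from free homotopies of its differences and normals
-/

set_option linter.unusedSectionVars false

namespace Vale.Agent.P268.H288

open scoped unitInterval Topology Topology.Homotopy RealInnerProductSpace
open Set Vale.Agent.P268.T.A109

section General

variable {M : Type*} {X : Type*} [TopologicalSpace X] {A : Set X} {a : X}

/-- Null-homotopies of relative spheroids of class `1`. -/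
theorem nullhomotopy_of_hcl_eq_one [DecidableEq M] [Nonempty M] {ha : a ∈ A}
    {p : Ω^ M (PP X A a) (PP.const ha)} (h : hcl p = 1) :
    ∃ H : C(I × ((M → I) × I), X), (∀ q, H (0, q) = PP.ofGL p q) ∧ (∀ q, H (1, q) = a) ∧
      ∀ s, PP.Rel A a fun q => H (s, q) := by
  rw [← hcl_one, hcl_eq_iff, PP.homotopic_iff] at h
  exact h

/-- Homotopies of relative spheroids of the same class. -/
theorem homotopy_of_hcl_eq {ha : a ∈ A}
    {p q : Ω^ M (PP X A a) (PP.const ha)} (h : hcl p = hcl q) :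
    ∃ H : C(I × ((M → I) × I), X), (∀ x, H (0, x) = PP.ofGL p x) ∧
      (∀ x, H (1, x) = PP.ofGL q x) ∧ ∀ s, PP.Rel A a fun x => H (s, x) := by
  rwa [hcl_eq_iff, PP.homotopic_iff] at h

end General

variable {V : Type*} [NormedAddCommGroup V] [InnerProductSpace ℝ V] [FiniteDimensional ℝ V]
  (φ : Fr V) {M : Type*} [Fintype M] [DecidableEq M] [Nonempty M] {r : ℕ}

/-- The scaled homotopy of a difference. -/
noncomputable def scaleHom {i j : Fin r} (hij : i < j) (D : C(I × ((M → I) × I), V))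
    (hD : ∀ p, D p ≠ 0) : C(I × ((M → I) × I), V0 V) where
  toFun p := ⟨((1 - (p.1 : ℝ)) * ((j : ℝ) - i)⁻¹ + p.1) • D p, by
    have h0 : (0 : ℝ) < (j : ℝ) - i := by
      have : ((i : ℕ) : ℝ) < ((j : ℕ) : ℝ) := by exact_mod_cast hij
      linarith
    have h1 : 0 < ((j : ℝ) - i)⁻¹ := inv_pos.mpr h0
    have h2 : 0 ≤ (p.1 : ℝ) := p.1.2.1
    have h3 : (p.1 : ℝ) ≤ 1 := p.1.2.2
    have h4 : 0 < (1 - (p.1 : ℝ)) * ((j : ℝ) - i)⁻¹ + p.1 := by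
      rcases h2.eq_or_lt with h | h
      · rw [← h, sub_zero, one_mul, add_zero]; exact h1
      · exact add_pos_of_nonneg_of_pos (mul_nonneg (by linarith) h1.le) h
    exact smul_ne_zero h4.ne' (hD p)⟩
  continuous_toFun := by
    refine Continuous.subtype_mk ?_ _
    have := D.continuous
    fun_prop

/-- The class of a pair of strands from a free homotopy of their difference. -/
theorem clsH_toB (hV : 4 ≤ Module.finrank ℝ V) (c : C((M → I) × I, BX V r))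
    (δ : Path (c topC) (φ.bx r)) (hc : ∀ q ∈ bdC M, c q ∈ φ.BA r) (hδ : ∀ t, δ t ∈ φ.BA r)
    (G : C((M → I) × I, V0 V)) (hG : ∀ q ∈ bdC M, G q ∈ φ.A0) {i j : Fin r} (hij : i < j)
    (D : C(I × ((M → I) × I), V)) (hD : ∀ p, D p ≠ 0)
    (hD0 : ∀ q, D (0, q) = (c q).1.1 j - (c q).1.1 i) (hD1 : ∀ q, D (1, q) = G q)
    (hDb : ∀ s, ∀ q ∈ bdC M, ⟪φ.h, D (s, q)⟫ = 0) :
    φ.clsH M hij (hcl (toB (φ.bx_mem r) c δ hc hδ)) = gcl φ hV G hG := by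
  have h1 : φ.clsH M hij (hcl (toB (φ.bx_mem r) c δ hc hδ)) =
      hcl (toB φ.e0_mem ((Fr.dif hij).comp c) (mapPath (Fr.dif hij) δ rfl (φ.dif_bx hij))
        (fun q hq => φ.dif_mem hij _ (hc q hq)) (fun t => φ.dif_mem hij _ (hδ t))) := by
    rw [← glMap_toB (Fr.dif hij) (φ.dif_mem hij) (φ.dif_bx hij) (φ.bx_mem r) φ.e0_mem c δ hc hδ]
    rfl
  rw [h1]
  refine hcl_toB_eq_gcl φ hV _ hG _ (scaleHom hij D hD) ?_ ?_ ?_
  · intro s q hq
    change ⟪φ.h, _ • D (s, q)⟫ = 0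
    rw [inner_smul_right, hDb s q hq, mul_zero]
  · intro q
    refine Subtype.ext ?_
    change ((1 - ((0 : I) : ℝ)) * ((j : ℝ) - i)⁻¹ + ((0 : I) : ℝ)) • D (0, q) =
      ((j : ℝ) - i)⁻¹ • ((c q).1.1 j - (c q).1.1 i)
    rw [hD0 q, show ((0 : I) : ℝ) = 0 from rfl, sub_zero, one_mul, add_zero]
  · intro q
    refine Subtype.ext ?_
    change ((1 - ((1 : I) : ℝ)) * ((j : ℝ) - i)⁻¹ + ((1 : I) : ℝ)) • D (1, q) = G q
    rw [hD1 q, show ((1 : I) : ℝ) = 1 from rfl, sub_self, zero_mul, zero_add, one_smul]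

/-- The class of a pair of strands is trivial if their difference can be freely deformed into
`H ∖ 0`. -/
theorem clsH_toB_one (hV : 4 ≤ Module.finrank ℝ V) (c : C((M → I) × I, BX V r))
    (δ : Path (c topC) (φ.bx r)) (hc : ∀ q ∈ bdC M, c q ∈ φ.BA r) (hδ : ∀ t, δ t ∈ φ.BA r)
    {i j : Fin r} (hij : i < j)
    (D : C(I × ((M → I) × I), V)) (hD : ∀ p, D p ≠ 0)
    (hD0 : ∀ q, D (0, q) = (c q).1.1 j - (c q).1.1 i) (hD1 : ∀ q, ⟪φ.h, D (1, q)⟫ = 0)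
    (hDb : ∀ s, ∀ q ∈ bdC M, ⟪φ.h, D (s, q)⟫ = 0) :
    φ.clsH M hij (hcl (toB (φ.bx_mem r) c δ hc hδ)) = 1 := by
  have h1 : φ.clsH M hij (hcl (toB (φ.bx_mem r) c δ hc hδ)) =
      hcl (toB φ.e0_mem ((Fr.dif hij).comp c) (mapPath (Fr.dif hij) δ rfl (φ.dif_bx hij))
        (fun q hq => φ.dif_mem hij _ (hc q hq)) (fun t => φ.dif_mem hij _ (hδ t))) := by
    rw [← glMap_toB (Fr.dif hij) (φ.dif_mem hij) (φ.dif_bx hij) (φ.bx_mem r) φ.e0_mem c δ hc hδ]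
    rfl
  rw [h1]
  refine hcl_toB_eq_one' φ hV (G := (scaleHom hij D hD).comp ⟨fun q => ((1 : I), q), by fun_prop⟩)
    _ ?_ _ (scaleHom hij D hD) ?_ ?_ ?_
  · intro q
    change ⟪φ.h, _ • D (1, q)⟫ = 0
    rw [inner_smul_right, hD1 q, mul_zero]
  · intro s q hq
    change ⟪φ.h, _ • D (s, q)⟫ = 0
    rw [inner_smul_right, hDb s q hq, mul_zero]
  · intro q
    refine Subtype.ext ?_
    change ((1 - ((0 : I) : ℝ)) * ((j : ℝ) - i)⁻¹ + ((0 : I) : ℝ)) • D (0, q) =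
      ((j : ℝ) - i)⁻¹ • ((c q).1.1 j - (c q).1.1 i)
    rw [hD0 q, show ((0 : I) : ℝ) = 0 from rfl, sub_zero, one_mul, add_zero]
  · intro q
    rfl

/-- The twist of a strand from a free homotopy of its normal. -/
theorem twH_toB (hV : 4 ≤ Module.finrank ℝ V) (c : C((M → I) × I, BX V r))
    (δ : Path (c topC) (φ.bx r)) (hc : ∀ q ∈ bdC M, c q ∈ φ.BA r) (hδ : ∀ t, δ t ∈ φ.BA r)
    (G : C((M → I) × I, V0 V)) (hG : ∀ q ∈ bdC M, G q ∈ φ.A0) (i : Fin r)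
    (N : C(I × ((M → I) × I), S1 V)) (hN0 : ∀ q, N (0, q) = (c q).2 i)
    (hN1 : ∀ q, (N (1, q) : V) = rf (G q : V) φ.h) (hNb : ∀ s, ∀ q ∈ bdC M, N (s, q) = φ.h1) :
    φ.twH M i (hcl (toB (φ.bx_mem r) c δ hc hδ)) = φ.psiH M (gcl φ hV G hG) := by
  have h1 : φ.twH M i (hcl (toB (φ.bx_mem r) c δ hc hδ)) =
      hcl (toB φ.h1_mem ((Fr.nrm i).comp c) (mapPath (Fr.nrm i) δ rfl (φ.nrm_bx i))
        (fun q hq => φ.nrm_mem i _ (hc q hq)) (fun t => φ.nrm_mem i _ (hδ t))) := by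
    rw [← glMap_toB (Fr.nrm i) (φ.nrm_mem i) (φ.nrm_bx i) (φ.bx_mem r) φ.h1_mem c δ hc hδ]
    rfl
  obtain ⟨δG, hδG, hg⟩ : ∃ (δG : Path (G topC) φ.e0) (hδG : ∀ t, δG t ∈ φ.A0),
      gcl φ hV G hG = hcl (toB φ.e0_mem G δG hG hδG) := ⟨_, _, rfl⟩
  have h2 : φ.psiH M (gcl φ hV G hG) =
      hcl (toB φ.h1_mem (φ.psiMap.comp G) (mapPath φ.psiMap δG rfl φ.psiMap_e)
        (fun q hq => φ.psiMap_mem _ (hG q hq)) (fun t => φ.psiMap_mem _ (hδG t))) := by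
    rw [hg, ← glMap_toB φ.psiMap φ.psiMap_mem φ.psiMap_e φ.e0_mem φ.h1_mem G δG hG hδG]
    rfl
  rw [h1, h2, hcl_eq_iff]
  refine toB_homotopic N (fun s q hq => hNb s q hq) (fun q => hN0 q)
    (fun q => Subtype.ext (hN1 q)) (ContinuousMap.const _ φ.h1) (fun _ => rfl) ?_ (fun _ => rfl)
    ?_ ?_
  · intro s
    exact (hNb s _ topC_mem).symm
  · intro t
    exact ((hδ t).2 i).symm
  · intro t
    exact (φ.psiMap_of_mem (hδG t)).symm

/-- **The type theorem for free braids.** -/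
theorem hasType_toB (hV : 4 ≤ Module.finrank ℝ V) (c : C((M → I) × I, BX V r))
    (δ : Path (c topC) (φ.bx r)) (hc : ∀ q ∈ bdC M, c q ∈ φ.BA r) (hδ : ∀ t, δ t ∈ φ.BA r)
    (G : C((M → I) × I, V0 V)) (hG : ∀ q ∈ bdC M, G q ∈ φ.A0) (L : Matrix (Fin r) (Fin r) ℤ)
    (hdiag : ∀ i, L i i = 1) (hlow : ∀ i j, i < j → L j i = 0)
    (hpair : ∀ i j : Fin r, i < j → ∃ D : C(I × ((M → I) × I), V), (∀ p, D p ≠ 0) ∧
      (∀ q, D (0, q) = (c q).1.1 j - (c q).1.1 i) ∧ (∀ s, ∀ q ∈ bdC M, ⟪φ.h, D (s, q)⟫ = 0) ∧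
      ((L i j = 1 ∧ ∀ q, D (1, q) = G q) ∨ (L i j = 0 ∧ ∀ q, ⟪φ.h, D (1, q)⟫ = 0)))
    (htw : ∀ i : Fin r, ∃ N : C(I × ((M → I) × I), S1 V), (∀ q, N (0, q) = (c q).2 i) ∧
      (∀ q, (N (1, q) : V) = rf (G q : V) φ.h) ∧ ∀ s, ∀ q ∈ bdC M, N (s, q) = φ.h1) :
    φ.HasType (gcl φ hV G hG) L (hcl (toB (φ.bx_mem r) c δ hc hδ)) where
  pair i j h := by
    obtain ⟨D, hD, hD0, hDb, hD1⟩ := hpair i j h
    rw [hlow i j h, zpow_zero, mul_one]
    rcases hD1 with ⟨hL, hD1⟩ | ⟨hL, hD1⟩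
    · rw [hL, zpow_one]
      exact clsH_toB φ hV c δ hc hδ G hG h D hD hD0 hD1 hDb
    · rw [hL, zpow_zero]
      exact clsH_toB_one φ hV c δ hc hδ h D hD hD0 hD1 hDb
  twist i := by
    obtain ⟨N, hN0, hN1, hNb⟩ := htw i
    rw [hdiag i, zpow_one]
    exact twH_toB φ hV c δ hc hδ G hG i N hN0 hN1 hNb

end Vale.Agent.P268.H288
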