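import Vale.Agent.P268.H288.TypeThm2
import Vale.Agent.P268.T.NBr

/-!
# The inverse chart of the cube

`unM` is inverse to `cubeM` on the closed unit ball of `Fin (m + 1) → ℝ`.
-/

set_option linter.unusedSectionVars false

namespace Vale.Agent.P268.T

open scoped unitInterval Topology Topology.Homotopy RealInnerProductSpace
open Set Metric Vale.Agent.P268.H288 Vale.Agent.P268.T.A109

/-! ### The inverse chart -/

/-- The inverse of `cubeM`. -/
noncomputable def unM {m : ℕ} (q : (Fin m → I) × I) : Fin (m + 1) → ℝ :=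
  Fin.snoc (fun i => 2 * (q.1 i : ℝ) - 1) (2 * (q.2 : ℝ) - 1)

theorem unM_castSucc {m : ℕ} (q : (Fin m → I) × I) (i : Fin m) :
    unM q i.castSucc = 2 * (q.1 i : ℝ) - 1 := by
  simp [unM]

theorem unM_last {m : ℕ} (q : (Fin m → I) × I) : unM q (Fin.last m) = 2 * (q.2 : ℝ) - 1 := by
  simp [unM]

theorem continuous_unM {m : ℕ} : Continuous (unM : (Fin m → I) × I → Fin (m + 1) → ℝ) := by
  refine continuous_pi fun i => ?_
  rcases Fin.eq_castSucc_or_eq_last i with ⟨j, rfl⟩ | rfl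
  · simp only [unM_castSucc]
    fun_prop
  · simp only [unM_last]
    fun_prop

theorem abs_two_mul_sub_one (t : I) : |2 * (t : ℝ) - 1| ≤ 1 := by
  rw [abs_le]
  constructor <;> linarith [t.2.1, t.2.2]

theorem norm_unM_le {m : ℕ} (q : (Fin m → I) × I) : ‖unM q‖ ≤ 1 := by
  refine (pi_norm_le_iff_of_nonneg zero_le_one).mpr fun i => ?_
  rcases Fin.eq_castSucc_or_eq_last i with ⟨j, rfl⟩ | rfl
  · rw [unM_castSucc]
    exact abs_two_mul_sub_one _
  · rw [unM_last]
    exact abs_two_mul_sub_one _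

theorem unM_mem {m : ℕ} (q : (Fin m → I) × I) : unM q ∈ closedBall (0 : Fin (m + 1) → ℝ) 1 := by
  rw [mem_closedBall_zero_iff]
  exact norm_unM_le q

theorem norm_unM_eq {m : ℕ} {q : (Fin m → I) × I} (hq : q ∈ bdC (Fin m)) : ‖unM q‖ = 1 := by
  have key : ∀ t : I, t = 0 ∨ t = 1 → |2 * (t : ℝ) - 1| = 1 := by
    rintro t (rfl | rfl)
    · norm_num
    · norm_num
  refine le_antisymm (norm_unM_le q) ?_
  rcases hq with ⟨i, hi⟩ | h
  · rw [← key _ hi, ← unM_castSucc q i]
    exact norm_le_pi_norm (unM q) _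
  · rw [← key _ h, ← unM_last q]
    exact norm_le_pi_norm (unM q) _

theorem cubeM_unM {m : ℕ} (q : (Fin m → I) × I) : cubeM (unM q) = q := by
  have key : ∀ t : I, projIcc (0 : ℝ) 1 zero_le_one ((2 * (t : ℝ) - 1 + 1) / 2) = t := by
    intro t
    rw [show (2 * (t : ℝ) - 1 + 1) / 2 = t by ring]
    exact projIcc_val zero_le_one t
  refine Prod.ext (funext fun i => ?_) ?_
  · change projIcc 0 1 zero_le_one ((unM q i.castSucc + 1) / 2) = q.1 i
    rw [unM_castSucc, key]
  · change projIcc 0 1 zero_le_one ((unM q (Fin.last m) + 1) / 2) = q.2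
    rw [unM_last, key]

theorem unM_cubeM {m : ℕ} {x : Fin (m + 1) → ℝ} (hx : ‖x‖ ≤ 1) : unM (cubeM x) = x := by
  have key : ∀ a : ℝ, |a| ≤ 1 → 2 * ((projIcc (0 : ℝ) 1 zero_le_one ((a + 1) / 2) : I) : ℝ) - 1 = a := by
    intro a ha
    obtain ⟨h1, h2⟩ := abs_le.mp ha
    rw [projIcc_of_mem zero_le_one (x := (a + 1) / 2) ⟨by linarith, by linarith⟩]
    change 2 * ((a + 1) / 2) - 1 = a
    ring
  funext i
  rcases Fin.eq_castSucc_or_eq_last i with ⟨j, rfl⟩ | rfl
  · rw [unM_castSucc]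
    exact key _ ((norm_le_pi_norm x _).trans hx)
  · rw [unM_last]
    exact key _ ((norm_le_pi_norm x _).trans hx)

theorem cubeM_mem_bdC {m : ℕ} {x : Fin (m + 1) → ℝ} (hx : ‖x‖ = 1) :
    cubeM x ∈ bdC (Fin m) := by
  rcases cubeM_boundary hx with h | h | h
  · exact Or.inl h
  · exact Or.inr (Or.inr h)
  · exact Or.inr (Or.inl h)

end Vale.Agent.P268.T
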